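import Crest.Agent.N255.Sl.All
import Crest.Agent.N255.Sl.One
import Crest.Agent.N255.Tg.PA
import Crest.Agent.N255.Tg.PZ
import Crest.Agent.N255.Io.Crd
import Crest.Agent.N255.Wt.Vb
import Crest.Agent.N255.Cs.Id
import Crest.Agent.N255.Io.Mon
import Crest.Agent.N255.Sl.Neu
import Crest.Agent.N255.Lp.Eps
import Crest.Agent.N255.Cs.Cap0
import Crest.Agent.N255.Wf.W12

-- ▼ part N255/Sl/PB
section

/-! Row 255 (helper56): step B, the deep squares of all slots are absorbed by the walls. -/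

set_option autoImplicit false

noncomputable section

namespace N255.Sl

open N255.Dr N255.Dr.O Crest.Agent.N255.Tg N255.Core

theorem mem_iSup_sum {A ι : Type*} [CommRing A] [Fintype ι] {J : ι → Ideal A} {x : A}
    (hx : x ∈ ⨆ i, J i) : ∃ P : ι → A, (∀ i, P i ∈ J i) ∧ ∑ i, P i = x := by
  classical
  induction hx using Submodule.iSup_induction' with
  | mem i x hx => exact ⟨Pi.single i x, fun j => by
      by_cases h : j = i
      · subst h; simpa using hx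
      · simp [h], by simp⟩
  | zero => exact ⟨0, by simp, by simp⟩
  | add x y _ _ h1 h2 =>
    obtain ⟨P, h1, rfl⟩ := h1
    obtain ⟨Q, h2, rfl⟩ := h2
    exact ⟨P + Q, fun i => add_mem (h1 i) (h2 i), by simp [Finset.sum_add_distrib]⟩

namespace Zn

variable {A κ α ι : Type*} [CommRing A] {Z : Zn A κ α ι}

/-- the generators may be changed by macroscopic generators -/
theorem Ok.shift (h : Z.Ok) (r : α → A)
    (hr : ∀ a, r a ∈ ⨆ (b) (_ : Z.pa b = 0 ∧ r b = 0), Ideal.span {Z.E b}) :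
    ({ Z with E := fun a => Z.E a + r a } : Zn A κ α ι).Ok := by
  refine { h with hE1 := fun k => (h.hE1 k).trans (sup_le_sup_right (iSup₂_le fun a ha => ?_) _) }
  have h1 : Z.E a + r a ∈ ⨆ (a) (_ : Z.pa a ≤ Z.pos k + Z.γ), Ideal.span {Z.E a + r a} :=
    Ideal.mem_iSup_of_mem a (Ideal.mem_iSup_of_mem ha (Ideal.mem_span_singleton_self _))
  have h2 : (⨆ (b) (_ : Z.pa b = 0 ∧ r b = 0), Ideal.span {Z.E b}) ≤
      ⨆ (a) (_ : Z.pa a ≤ Z.pos k + Z.γ), Ideal.span {Z.E a + r a} := iSup₂_le fun b hb =>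
    le_iSup₂_of_le b (by omega) (by rw [hb.2, add_zero])
  simpa using (Ideal.span_singleton_le_iff_mem _).2 (sub_mem h1 (h2 (hr a)))

end Zn

variable {p : ℕ} [Fact p.Prime] {Γ : Type} [AddCommGroup Γ] {δ : Γ}

/-- the multiplicative coefficients: only the variables `y` move multiplicatively -/
def YU {σ : Type} [Fintype σ] (w : Wall p Γ δ σ) (x : σ) : Ideal (O p (ZMod p) σ) :=
  if w.kd x = none then sp fun y : {y // w.kd y = none} => z y.1 else ⊥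

/-- The wall facts `W1`, `W2`: `I` = centre ideal, `ka a` = generator detected by `e a`. -/
structure Wf {σ : Type} [Fintype σ] (w : Wall p Γ δ σ) (N : ℕ) where
  I : Ideal (O p (ZMod p) σ)
  KU : Ideal (O p (ZMod p) σ)
  β : Type
  ka : β → O p (ZMod p) σ
  e : β → σ
  hI : I ≤ mx
  he : ∀ a, w.kd (e a) ≠ none
  hk : ∀ a, ka a ∈ I ∧ ka a ∈ Ge p (ZMod p) (fun x => N + w.F x) ((N + w.F (e a) : ℕ) + 1)
  w1 : I ≤ sp ka ⊔ EE (YU w) (fun x => pd x w.W) KU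
  w2 : ∀ a, ka a - pd (e a) w.W ∈ mx * I ⊔ EE (YU w) (fun x => pd x w.W) KU
  hes : ∀ a b, pd (e a) (pd (e b) w.W) ∈ (mx : Ideal (O p (ZMod p) σ))

variable {s : Fin 3 → Type} [∀ i, Fintype (s i)] {w : ∀ i, Wall p Γ δ (s i)} {N : ℕ}
  {A : Type*} [CommRing A] [Algebra (ZMod p) A] {κ α : Type*} [Fintype α]

/-- **Step B.**  `io i` = the vertex family read on the wall `i`, `G` = all other terms. -/
theorem stepB (f : ∀ i, Wf (w i) N) (t : Fin 3 → Bool) {Z : Zn A κ α (Fin 3)} (hZ : Z.Ok)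
    (hp : ∀ x ∈ Z.m, x ^ p = 0) {io : ∀ i, O p (ZMod p) (s i) →ₐ[ZMod p] A}
    (hm : ∀ i x, io i (z x) ∈ Z.m) {Fl : Fin 3 → ℤ → Ideal A} (fl : ∀ i, Flt (Fl i))
    (hF : ∀ i x, io i (z x) ∈ Fl i (N + (w i).F x : ℕ)) {H : Ideal A} {H1 : Fin 3 → Ideal A}
    (hI : ∀ i, Z.IK i ≤ (f i).I.map (io i) ⊔ H1 i)
    (hH : ∀ i, ((f i).I.map (io i) ⊔ H1 i) * H1 i ≤ H)
    (hK : ∀ i, (f i).I.map (io i) * (f i).KU.map (io i) ≤ H) {G : A}
    (hP : ∑ i, (if t i = true then io i (w i).W else -io i (w i).W) + G - ∑ b, Z.ε b * Z.E b ∈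
      Z.Qd ⊔ Z.Eps * Z.Eps ⊔ H) :
    ∃ (jo : ∀ i, O p (ZMod p) (s i) →ₐ[ZMod p] A) (h : ∀ i, s i → s i → A),
      (∀ i x, (w i).kd x ≠ none →
        jo i (z x) - io i (z x) ∈ (f i).I.map (io i) ⊓ Fl i ((N + (w i).F x : ℕ) + 1)) ∧
      (∀ i x, (w i).kd x ≠ none → x ∉ Set.range (f i).e → jo i (z x) = io i (z x)) ∧
      (∀ i y y', h i y y' ∈ (f i).I.map (io i)) ∧
      (∀ i y, (w i).kd y = none → jo i (z y) = ys (w := w) (fun x => io i (z x)) (h i) y) ∧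
      ∑ i, (if t i = true then jo i (w i).W else -jo i (w i).W) + G - ∑ b, Z.ε b * Z.E b ∈
        Z.Rs ⊔ H := by
  classical
  have h1 : Z.Qd ⊔ Z.Eps * Z.Eps ⊔ H ≤ (⨆ i, (f i).I.map (io i) ^ 2 ⊔ H) ⊔ Z.Rs := by
    refine sup_le (sup_le (hZ.Qd_le.trans (sup_le_sup_right (iSup_mono fun i => ?_) _))
      (le_sup_of_le_right Zn.Eps_sq)) (le_sup_of_le_left (le_iSup_of_le 0 le_sup_right))
    refine (Ideal.mul_mono (hI i) (hI i)).trans ?_
    rw [Ideal.mul_sup, Ideal.sup_mul ((f i).I.map (io i)) (H1 i) ((f i).I.map (io i)), sq,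
      mul_comm (H1 i)]
    exact sup_le (sup_le_sup_left ((Ideal.mul_mono_left le_sup_left).trans (hH i)) _)
      (le_sup_of_le_right (hH i))
  obtain ⟨P', hP', R, hR, e⟩ := Submodule.mem_sup.1 (h1 hP)
  obtain ⟨P, hP1, rfl⟩ := mem_iSup_sum hP'
  have hY : ∀ i x, YU (w i) x ≤ mx := fun i x => by
    unfold YU
    split_ifs
    exacts [sp_le.2 fun _ => z_mem _, bot_le]
  have key := fun i => Crest.Agent.N255.Sl.step1 hZ.nil hp (hm i) (f i).hI (hY i) (fl i)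
    (F := fun x => N + (w i).F x) (hF i) 1 (f i).hk (f i).w1 (f i).w2 (hK i) (f i).hes
    (P := if t i = true then -P i else P i) (by split_ifs; exacts [neg_mem (hP1 i), hP1 i])
  choose jo k1 k2 k3 using key
  have k4 : ∀ i y, ∃ c : s i → A, (∀ y', c y' ∈ (f i).I.map (io i)) ∧ ((w i).kd y = none →
      jo i (z y) = io i (z y) + ∑ y', if (w i).kd y' = none then io i (z y') * c y' else 0) :=
    fun i y => by
    by_cases hy : (w i).kd y = none
    swap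
    · exact ⟨0, by simp, fun h => absurd h hy⟩
    have := k2 i y (by rintro ⟨a, rfl⟩; exact (f i).he a hy)
    rw [YU, if_pos hy] at this
    obtain ⟨c, hc, e⟩ := Crest.Agent.N255.Sl.mem_mul_map_sp _ _ this
    refine ⟨fun y' => if h : (w i).kd y' = none then c ⟨y', h⟩ else 0, fun y' => ?_, fun _ => ?_⟩
    · beta_reduce
      split_ifs
      exacts [hc _, zero_mem _]
    · rw [← Finset.sum_filter, Finset.sum_subtype (p := fun y' => (w i).kd y' = none) _ (by simp),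
        ← sub_eq_iff_eq_add', e]
      exact Finset.sum_congr rfl fun y' _ => by beta_reduce; rw [dif_pos y'.2, mul_comm]
  choose h k5 k6 using k4
  refine ⟨jo, h, fun i x hx => ?_, fun i x hx hx' => ?_, k5, k6, ?_⟩
  · simpa [YU, hx] using k1 i x
  · simpa [YU, hx, sub_eq_zero] using k2 i x hx'
  · have : ∑ i, ((if t i = true then jo i (w i).W else -jo i (w i).W) -
        (if t i = true then io i (w i).W else -io i (w i).W) + P i) ∈ H :=
      sum_mem fun i _ => by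
        have := k3 i
        split_ifs at this ⊢
        · simpa using this
        · convert neg_mem this using 1; ring
    convert Submodule.add_mem_sup hR this using 1
    simp only [Finset.sum_add_distrib, Finset.sum_sub_distrib]
    linear_combination -e


end N255.Sl

end
end

-- ▼ part N255/Sl/PC
section

/-! Row 255 (helper56): the quadratic part of the vertex potential after step B. -/

set_option autoImplicit false

noncomputable section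

namespace N255.Sl

open N255.Dr N255.Dr.O Crest.Agent.N255.Tg N255.Core Sum
open Crest.Agent.N255.Io (Zs z_Zs Zs_le Zs_mx map_Zs pd_pow)

section Jet

variable {p : ℕ} {K : Type} [CommRing K] [Fact p.Prime] [Fact ((p : K) = 0)] {σ τ : Type}

omit [Fact p.Prime] in
theorem pd_Zs {S : Set σ} {u : σ} (hu : u ∉ S) {g : O p K σ} (hg : g ∈ Zs p K S) :
    pd u g ∈ Zs p K S := by
  induction hg using Submodule.span_induction with
  | mem x hx =>
    obtain ⟨a, ha, rfl⟩ := hx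
    rw [pd_z_ne (by rintro rfl; exact hu ha)]
    exact zero_mem _
  | zero => simp
  | add x y _ _ h1 h2 => rw [map_add]; exact add_mem h1 h2
  | smul a x hx h1 =>
    rw [smul_eq_mul, Derivation.leibniz, smul_eq_mul, smul_eq_mul]
    exact add_mem (Ideal.mul_mem_left _ _ h1) (Ideal.mul_mem_right _ _ hx)

omit [Fact p.Prime] in
theorem pd_mul_mem {I J L : Ideal (O p K σ)} {u : σ} (h1 : ∀ f ∈ I, ∀ g ∈ J, f * pd u g ∈ L)
    (h2 : ∀ f ∈ I, ∀ g ∈ J, g * pd u f ∈ L) {x : O p K σ} (hx : x ∈ I * J) : pd u x ∈ L := by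
  refine Submodule.mul_induction_on hx (fun f hf g hg => ?_) fun x y a b => ?_
  · rw [Derivation.leibniz, smul_eq_mul, smul_eq_mul]; exact add_mem (h1 f hf g hg) (h2 f hf g hg)
  · rw [map_add]; exact add_mem a b

/-- elements whose quadratic part lies in `∑ (Y i) * (T i)` -/
def Q2 (p : ℕ) (K : Type) [CommRing K] {σ ι : Type} (Y T : ι → Set σ) : Ideal (O p K σ) :=
  (⨆ i, Zs p K (Y i) * Zs p K (T i)) ⊔ mx ^ 3

variable {ι : Type} {Y T : ι → Set σ} {g : O p K σ}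

omit [Fact p.Prime] [Fact ((p : K) = 0)] in
theorem Q2_le : Q2 p K Y T ≤ mx ^ 2 :=
  sup_le (iSup_le fun _ => by rw [sq]; exact Ideal.mul_mono (Zs_mx _) (Zs_mx _))
    (Ideal.pow_le_pow_right (by norm_num))

omit [Fact p.Prime] in
/-- the linear part of a derivative -/
theorem pd_Q2 (hg : g ∈ Q2 p K Y T) (u : σ) :
    pd u g ∈ mx ^ 2 ⊔ Zs p K {v | ∃ i, (u ∈ Y i ∧ v ∈ T i) ∨ (u ∈ T i ∧ v ∈ Y i)} := by
  obtain ⟨a, ha, b, hb, rfl⟩ := Submodule.mem_sup.1 hg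
  rw [map_add]
  refine add_mem ?_ (Ideal.mem_sup_left (pd_pow u 2 hb))
  have key : ∀ {S S' R : Set σ}, (u ∈ S' → S ⊆ R) → ∀ f ∈ Zs p K S, ∀ g ∈ Zs p K S',
      f * pd u g ∈ mx ^ 2 ⊔ Zs p K R := fun {S S' R} h f hf g hg => by
    by_cases hu : u ∈ S'
    · exact Ideal.mem_sup_right (Ideal.mul_mem_right _ _ (Zs_le.2 (fun a ha => z_Zs (h hu ha)) hf))
    · exact Ideal.mem_sup_left (sq (mx : Ideal (O p K σ)) ▸
        Ideal.mul_mem_mul (Zs_mx _ hf) (Zs_mx _ (pd_Zs hu hg)))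
  clear hg
  induction ha using Submodule.iSup_induction' with
  | mem i x hx =>
    exact pd_mul_mem (key fun h v hv => Exists.intro i (Or.inr ⟨h, hv⟩))
      (fun f hf g hg => key (fun h v hv => Exists.intro i (Or.inl ⟨h, hv⟩)) g hg f hf) hx
  | zero => simp
  | add x y _ _ h1 h2 => rw [map_add]; exact add_mem h1 h2


omit [Fact p.Prime] in
theorem pd_pd_Q2 [Fintype σ] (hg : g ∈ Q2 p K Y T) {u v : σ}
    (h : ∀ i, ¬ (u ∈ Y i ∧ v ∈ T i) ∧ ¬ (u ∈ T i ∧ v ∈ Y i)) : pd v (pd u g) ∈ mx :=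
  Crest.Agent.N255.Io.pd_sup (by rintro ⟨i, hv | hv⟩; exacts [(h i).1 hv, (h i).2 hv]) (pd_Q2 hg u)

omit [Fact ((p : K) = 0)] [Fact p.Prime] in
theorem map_Q2 {A : Type*} [CommRing A] [Algebra K A] (φ : O p K σ →ₐ[K] A) {m Y' T' : Ideal A}
    (hm : ∀ x, φ (z x) ∈ m) (hY : Y' ≤ m) (hT : T' ≤ m) {S S' : Set σ}
    (h1 : ∀ x ∈ S, φ (z x) ∈ Y' ⊔ m ^ 2) (h2 : ∀ x ∈ S', φ (z x) ∈ T' ⊔ m ^ 2)
    (hg : g ∈ Zs p K S * Zs p K S' ⊔ mx ^ 3) : φ g ∈ Y' * T' ⊔ m ^ 3 := by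
  have h := Ideal.mem_map_of_mem φ hg
  rw [Ideal.map_sup, Ideal.map_mul, Ideal.map_pow] at h
  have e : (mx : Ideal (O p K σ)).map φ ≤ m := Ideal.map_le_iff_le_comap.2 fun g => map_mx φ hm
  have e1 : (Zs p K S).map φ ≤ Y' ⊔ m ^ 2 := Ideal.map_le_iff_le_comap.2 fun g => map_Zs φ h1
  have e2 : (Zs p K S').map φ ≤ T' ⊔ m ^ 2 := Ideal.map_le_iff_le_comap.2 fun g => map_Zs φ h2
  refine (sup_le ((Ideal.mul_mono e1 e2).trans ?_)
    (le_sup_of_le_right (Ideal.pow_right_mono e 3)) : _ ≤ _) h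
  rw [Ideal.mul_sup, Ideal.sup_mul]
  refine sup_le (sup_le_sup_left ?_ _) (le_sup_of_le_right ?_)
  · rw [pow_succ _ 2]; exact Ideal.mul_mono_right hT
  · rw [pow_succ' _ 2]
    exact Ideal.mul_mono_left (sup_le hY (Ideal.pow_le_self two_ne_zero))

end Jet

variable {p : ℕ} [Fact p.Prime] {Γ : Type} [AddCommGroup Γ] {δ : Γ}

/-- The quadratic part of a wall potential; `hol` marks the holonomy variables. -/
def W0 {σ : Type} [Fintype σ] (w : Wall p Γ δ σ) (hol : σ → Prop) : Prop :=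
  w.W ∈ Zs p (ZMod p) {y | w.kd y = none} * Zs p (ZMod p) {x | w.kd x = none ∨ hol x} ⊔ mx ^ 3


variable {s : Fin 3 → Type} [∀ i, Fintype (s i)] {w : ∀ i, Wall p Γ δ (s i)} {t : Fin 3 → Bool}
  {V B : Type} [Fintype V] [Fintype B]

/-- the copies of the variables `y` of slot `i` -/
def Yv (w : ∀ i, Wall p Γ δ (s i)) (B : Type) (em : (Σ i, s i) × Bool → V) (i : Fin 3) :
    Set (V ⊕ B) := {u | ∃ y, (w i).kd y = none ∧ u = inl (em (⟨i, y⟩, false))}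

/-- the partners of the `y`: near variables in an `L` slot, far variables in an `M` slot -/
def Tv (w : ∀ i, Wall p Γ δ (s i)) (t : Fin 3 → Bool) (B : Type) (em : (Σ i, s i) × Bool → V)
    (i : Fin 3) : Set (V ⊕ B) :=
  {u | (∃ x, (w i).kd x ≠ some (!t i) ∧ u = inl (em (⟨i, x⟩, false))) ∨ (t i = true ∧ u.isRight)}

variable {em : (Σ i, s i) × Bool → V}


omit [Fact p.Prime] [Fintype V] [Fintype B] in
theorem Yv_eq (i : Fin 3) : Zs p (ZMod p) (Yv w B em i) =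
    Ideal.span {g | ∃ y, (w i).kd y = none ∧ g = z (inl (em (⟨i, y⟩, false)))} := by
  rw [Zs]
  congr 1
  ext g
  exact ⟨by rintro ⟨_, ⟨y, hy, rfl⟩, rfl⟩; exact ⟨y, hy, rfl⟩,
    by rintro ⟨y, hy, rfl⟩; exact ⟨_, ⟨y, hy, rfl⟩, rfl⟩⟩


/-- the Hessian facts used by step 2 and step A -/
structure Hs (w : ∀ i, Wall p Γ δ (s i)) (t : Fin 3 → Bool) (em : (Σ i, s i) × Bool → V)
    (G : O p (ZMod p) (V ⊕ B)) : Prop where
  G2 : G ∈ mx ^ 2
  Gm : ∀ q : Xm w t, pd (inl (em q.1.1)) G ∈ mx ^ 2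
  iso : ∀ b b', pd (inr b) (pd (inr b') G) ∈ mx
  Gb : ∀ (q : Xi w t) b, pd (inl (em q.1)) (pd (inr b) G) ∈ mx
  hD : ∀ (o : V → ℕ) (μ N1 : ℕ), (∀ v, μ ≤ o v) → N1 ≤ 2 * μ →
    (∀ i y, (w i).kd y = none → N1 ≤ o (em (⟨i, y⟩, false))) →
    ∀ b, pz p V B (pd (inr b) G) ∈ Ge p (ZMod p) o N1


variable {N : ℕ} {κ α : Type*} [Fintype α]


/-- the weak form of `W0` -/
def W0w {σ : Type} [Fintype σ] (w : Wall p Γ δ σ) : Prop :=
  w.W ∈ Zs p (ZMod p) {y | w.kd y = none} * mx ⊔ mx ^ 3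

omit [Fact p.Prime] in
theorem Zs_univ {σ : Type} : Zs p (ZMod p) (Set.univ : Set σ) = mx := by
  rw [Zs, Set.image_univ]; rfl

theorem W0w.w0 {σ : Type} [Fintype σ] {w : Wall p Γ δ σ} (h : W0w w) : W0 w fun _ => True := by
  unfold W0
  unfold W0w at h
  simpa only [or_true, Set.setOf_true, Zs_univ] using h


/-- the Hessian facts for a family which does not see the variables `m` -/
theorem hs_weak (h0 : ∀ i, W0w (w i))
    {jo : ∀ i, O p (ZMod p) (s i) →ₐ[ZMod p] O p (ZMod p) (V ⊕ B)} (hm : ∀ i x, jo i (z x) ∈ mx)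
    (hy : ∀ i y, (w i).kd y = none → jo i (z y) - z (inl (em (⟨i, y⟩, false))) ∈
      Ideal.span {g | ∃ y, (w i).kd y = none ∧ g = z (inl (em (⟨i, y⟩, false)))} * mx)
    (fr : ∀ i x (q : Xm w t), pd (inl (em q.1.1)) (jo i (z x)) = 0)
    {Ps : O p (ZMod p) V} (h3 : Ps ∈ mx ^ 3) :
    GA w t jo Ps ∈ mx ^ 2 ∧ (∀ q : Xm w t, pd (inl (em q.1.1)) (GA w t jo Ps) ∈ mx ^ 2) ∧
      (∀ b b', pd (inr b) (pd (inr b') (GA w t jo Ps)) ∈ mx) ∧
      ∀ (o : V → ℕ) (μ N1 : ℕ), (∀ v, μ ≤ o v) → N1 ≤ 2 * μ →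
        (∀ i y, (w i).kd y = none → N1 ≤ o (em (⟨i, y⟩, false))) →
        ∀ b, pz p V B (pd (inr b) (GA w t jo Ps)) ∈ Ge p (ZMod p) o N1 := by
  have nY : ∀ i b, (inr b : V ⊕ B) ∉ Yv w B em i := by rintro i b ⟨y, -, h⟩; cases h
  have r3 : (rn inl Ps : O p (ZMod p) (V ⊕ B)) ∈ mx ^ 3 :=
    map_mx_pow _ (fun x => by rw [rn_z]; exact z_mem _) h3
  have h : GA w t jo Ps ∈ Q2 p (ZMod p) (Yv w B em) fun _ => Set.univ := by
    refine add_mem (sum_mem fun i _ => ?_) (Ideal.mem_sup_right r3)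
    have : jo i (w i).W ∈ Q2 p (ZMod p) (Yv w B em) fun _ => Set.univ := by
      refine SetLike.le_def.1 (sup_le_sup_right (le_iSup (fun i => Zs p (ZMod p) (Yv w B em i) *
        Zs p (ZMod p) Set.univ) i) _) (map_Q2 (jo i) (hm i) (Zs_mx _) (Zs_mx _) (fun y h => ?_)
          (fun x _ => Ideal.mem_sup_left (Zs_univ (p := p) ▸ hm i x)) (h0 i).w0)
      have h2 := hy i y h
      rw [← Yv_eq] at h2
      simpa using Ideal.mem_sup_left (T := mx ^ 2)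
        (add_mem (Ideal.mul_le_left h2) (z_Zs (T := Yv w B em i) ⟨y, h, rfl⟩))
    split_ifs
    exacts [this, neg_mem this]
  refine ⟨Q2_le h, fun q => ?_, fun b b' => pd_pd_Q2 h fun i =>
    ⟨fun h => nY i _ h.1, fun h => nY i _ h.2⟩, fun o μ N1 h1 h2 h3 b => ?_⟩
  · have : ∀ i, pd (inl (em q.1.1)) (jo i (w i).W) = 0 := fun i => by
      rw [chain]; simp [fr]
    rw [GA, map_add, map_sum, Finset.sum_eq_zero fun i _ => by split_ifs <;> simp [this], zero_add]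
    exact pd_pow _ 2 r3
  · obtain ⟨a, ha, c, hc, e⟩ := Submodule.mem_sup.1 (pd_Q2 h (inr b))
    rw [← e, map_add]
    refine add_mem (sq_le_Ge h1 (by omega) (map_mx_pow _ pz_mx ha)) (map_Zs _ ?_ hc)
    rintro v ⟨i, hv | ⟨-, y, hy, rfl⟩⟩
    · exact absurd hv.1 (nY i b)
    · rw [pz_inl]
      exact (flt_Ge o).anti (by have := h3 i y hy; omega) (z_mem_Ge o _)

end N255.Sl

end
namespace N255.Sl.W0
end N255.Sl.W0
end

-- ▼ part N255/Wt/Pz
section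

/-!
# Row 255 (helper76): the weight fields of `PVxZ`; doubling of positions
-/

set_option autoImplicit false
set_option linter.unusedSectionVars false

noncomputable section

namespace N255.Sl.Zn

variable {A κ α ι : Type*} [CommRing A]

/-- positions are doubled (weights are even) -/
def dbl (Z : Zn A κ α ι) (Wt : ℕ → Ideal A) (μ : ℕ) : Zn A κ α ι :=
  { Z with Wt := Wt, μ := μ, γ := 2 * Z.γ, pos := fun k => 2 * Z.pos k, pa := fun a => 2 * Z.pa a }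

variable {Z : Zn A κ α ι} {Wt : ℕ → Ideal A} {μ : ℕ}



theorem iSup₂_imp {β : Type*} {P Q : β → Prop} (f : β → Ideal A) (h : ∀ a, P a → Q a) :
    ⨆ (a) (_ : P a), f a ≤ ⨆ (a) (_ : Q a), f a :=
  iSup₂_le fun a ha => le_iSup₂_of_le (f := fun a (_ : Q a) => f a) a (h a ha) le_rfl

theorem Ok.dbl (h : Z.Ok) (fl : Fl Wt) (mle : Z.m ≤ Wt μ) (gap : 6 * Z.γ < μ) :
    (Z.dbl Wt μ).Ok := by
  refine ⟨fl, h.nil, mle, show 3 * (2 * Z.γ) < μ by omega, fun k => (h.hI k).trans ?_,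
    fun k => (h.hE1 k).trans ?_, fun k (hk : 2 * Z.γ < 2 * Z.pos k) => (h.hE2 k (by omega)).trans ?_⟩
  · exact sup_le_sup_left (iSup₂_imp (Q := fun a => 2 * Z.pos k ≤ 2 * Z.pa a + 2 * Z.γ) _
      fun a ha => by omega) _
  · exact sup_le_sup (iSup₂_imp (Q := fun a => 2 * Z.pa a ≤ 2 * Z.pos k + 2 * Z.γ) _
      fun a ha => by omega) (Ideal.mul_mono_right
        (iSup₂_imp (Q := fun k' => 2 * Z.pos k' ≤ 2 * Z.pos k + 2 * Z.γ) _ fun a ha => by omega))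
  · exact sup_le_sup_left (Ideal.mul_mono_right (iSup₂_imp (Q := fun k' =>
      2 * Z.pos k ≤ 2 * Z.pos k' + 2 * Z.γ ∧ (Z.sl k' = Z.sl k ∨ 2 * Z.pos k' ≤ 2 * Z.γ)) _
        fun a ha => ⟨by omega, ha.2.imp_right (by omega)⟩)) _

end N255.Sl.Zn

namespace N255.Wt

open Finset N255.Dr N255.Dr.O Crest.Agent.N255.Tg Sum
open N255.Core (Wall Ok Xi Hi vw yi)

variable {p : ℕ} [Fact p.Prime]

section adic

variable {K : Type} [CommRing K] [Fact ((p : K) = 0)] {U : Type} [Fintype U] {F : U → ℕ}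
  {μ n k La : ℕ}

theorem Wm_le_Ge (h : ∀ v, μ ≤ F v) {a : ℤ} (ha : a ≤ n) : Wm p K U μ n ≤ Ge p K F a :=
  Ge_mono h ha

theorem Wm_le_pow (h : μ * k < n + μ) (hμ : 0 < μ) :
    Wm p K U μ n ≤ (mx : Ideal (O p K U)) ^ k := by
  refine Ideal.span_le.2 ?_
  rintro _ ⟨a, ha, rfl⟩
  refine Ideal.pow_le_pow_right ?_ (zm_mem_pow a)
  rw [wt, ← sum_mul] at ha
  have h1 : μ * k < μ * (∑ v, a v + 1) := by
    rw [mul_add, mul_comm μ (∑ v, a v)]; omega
  exact Nat.lt_succ_iff.1 (Nat.lt_of_mul_lt_mul_left h1)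


theorem Wm_le_KK (h : ∀ v, μ ≤ F v) (hμ : 0 < μ) (h1 : μ < n) (h2 : 2 * La ≤ n) :
    Wm p K U μ n ≤ KK p K F La := le_inf (Wm_le_pow (by omega) hμ) (Wm_le_Ge h (by omega))


theorem pd_HH' {f : O p K U} (h : f ∈ HH p K F La) (x : U) :
    pd x f ∈ (mx : Ideal (O p K U)) ^ 2 ⊓ Ge p K F (3 * La + 1 - F x) :=
  ⟨pd_mem_pow h.1 x, pd_Ge h.2 x⟩

theorem map_HH {U' : Type} [Fintype U'] {F' : U' → ℕ} {ψ : O p K U →ₐ[K] O p K U'}
    (h : ∀ v, ψ (z v) ∈ mx) (h' : ∀ v, ψ (z v) ∈ Ge p K F' (F v)) {f : O p K U}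
    (hf : f ∈ HH p K F La) : ψ f ∈ HH p K F' La :=
  ⟨map_mx_pow ψ h hf.1, map_Ge (flt_Ge _) h' hf.2⟩


end adic

variable {Γ : Type} [AddCommGroup Γ] {δ : Γ} {s : Fin 3 → Type} [∀ i, Fintype (s i)]
  {w : ∀ i, Wall p Γ δ (s i)} {t : Fin 3 → Bool} {c n : ℕ}

theorem Ty.lt1 (T : Ty w c n) : N0 c < N1 c := by have := T.pos; unfold N0 N1; omega

theorem le1 (c : ℕ) : N1 c ≤ 2 * N0 c := by unfold N0 N1; omega

theorem Ty.N0_pos (T : Ty w c n) : 0 < N0 c := by have := T.pos; unfold N0; omega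


theorem Ty.F_pos (T : Ty w c n) (i : Fin 3) (x : s i) : 2 ≤ (w i).F x := by
  rw [T.F]; exact Sg.F_pos (by have := T.pos; omega) x

theorem Ty.hpos (T : Ty w c n) (i : Fin 3) (x : s i) : 0 < N0 c + (w i).F x := by
  have := T.F_pos i x; omega

theorem Ty.hob (T : Ty w c n) (i : Fin 3) (b : B w t) {γ a : ℕ} (hγ : γ ≤ 3 * c)
    (ha : T.pa b ≤ a) : ob c i b ≤ N1 c + (a - 3 * γ) := by
  have := T.FB_le b hγ
  have := ob_le (c := c) i b
  omega

namespace Vs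

variable {U : Type} [Fintype U] (u : Vs w t U)

theorem fm (q : Xm w t) : u.FV c (u.em q.1.1) ≤ N0 c := by
  rw [u.FV_em (xi_ok q.1), FQ, if_pos q.2]

theorem fv (T : Ty w c n) (v : U) (h : ∀ q : Xm w t, v ≠ u.em q.1.1) : N0 c < u.FV c v := by
  unfold FV FQ
  split_ifs with h1
  · have h2 := u.al v h1
    exact absurd (u.em_val (Or.inr ⟨h1, h2⟩)).symm (h ⟨⟨u.val v, h2⟩, h1⟩)
  · have := T.F_pos (u.val v).1.1 (u.val v).1.2; omega

theorem fy (T : Ty w c n) (q : Xi w t) : u.FV c (u.em q.1) < 2 * N0 c := by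
  have := u.FV_xi T q
  have := T.pos
  unfold N0 N1 at *
  omega

theorem hK1 {La : ℕ} (i : Fin 3) : u.K c La ≤ Ge p (ZMod p) (u.om c i) (N1 c) :=
  u.hK0.trans (iInf_le _ i)

/-- the negligible terms over all variables -/
abbrev HS (c La : ℕ) : Ideal (O p (ZMod p) (U ⊕ B w t)) := HH p (ZMod p) (u.mA c La) La


theorem pz_Ge {La : ℕ} (x : U ⊕ B w t) :
    pz p U (B w t) (z x) ∈ Ge p (ZMod p) (u.mw c La) (u.mA c La x) := by
  rcases x with x | b
  · rw [pz_inl]; exact z_mem_Ge _ x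
  · rw [pz_inr]; exact zero_mem _

theorem SH {La : ℕ} (r : O p (ZMod p) (U ⊕ B w t)) (h : r ∈ u.HS c La) :
    pz p U (B w t) r ∈ u.H c La := map_HH pz_mx u.pz_Ge h


/-- the weighted form of `SK` -/
theorem SKw (T : Ty w c n) {r : O p (ZMod p) (U ⊕ B w t)} (h : r ∈ u.HS c (La p c n)) (b : B w t)
    {γ a : ℕ} (hγ : γ ≤ 3 * c) (ha : T.pa b ≤ a) :
    Wm p (ZMod p) U (N0 c) (a - 3 * γ) * Ideal.span {pz p U (B w t) (pd (inr b) r)} ≤
      u.K c (La p c n) := by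
  have h1 := pd_HH' h (inr b)
  have h2 := T.FB_le b hγ
  have h3 := N1_lt_La p c n
  refine le_inf (Ideal.mul_le_right.trans ((Ideal.span_singleton_le_iff_mem _).2
    (map_mx_pow _ pz_mx h1.1))) ((flt_Ge _).mul_le (Wm_le_Ge (u.le_mw T) le_rfl)
      ((Ideal.span_singleton_le_iff_mem _).2 (map_Ge (flt_Ge _) u.pz_Ge h1.2)) ?_)
  simp only [Sum.elim_inr]
  omega

theorem Wm_le_K (T : Ty w c n) {a : ℕ} (ha : 2 * La p c n ≤ a) :
    Wm p (ZMod p) U (N0 c) a ≤ u.K c (La p c n) :=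
  Wm_le_KK (u.le_mw T) T.N0_pos (by have := N1_lt_La p c n; have := T.lt1; omega) ha


end Vs

end N255.Wt

end
end

-- ▼ part N255/Wt/A2
section

/-!
# Row 255 (helper76): the weights on `A2 = O (Σ i, s i)` and the passage to `O (V ⊕ B)`
-/

set_option autoImplicit false
set_option linter.unusedSectionVars false

noncomputable section

namespace N255.Wt

open Finset N255.Dr N255.Dr.O Crest.Agent.N255.Tg Sum
open N255.Core (Wall Ok Xi Hi vw yi)

variable {p : ℕ} [Fact p.Prime]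

section rn

variable {K : Type} [CommRing K] [Fact ((p : K) = 0)] {U U' : Type} [Fintype U] [Fintype U']
  {F : U → ℕ} {F' : U' → ℕ} {j : U → U'} {f : O p K U} {La μ n : ℕ}

theorem rn_z_Ge (h : ∀ x, F x ≤ F' (j x)) (x : U) : rn j (z x : O p K U) ∈ Ge p K F' (F x) := by
  rw [rn_z]; exact (flt_Ge F').anti (by have := h x; omega) (z_mem_Ge F' _)

theorem rn_z_mx (x : U) : rn j (z x : O p K U) ∈ mx := by rw [rn_z]; exact z_mem _

theorem rn_Ge (h : ∀ x, F x ≤ F' (j x)) {a : ℤ} (hf : f ∈ Ge p K F a) : rn j f ∈ Ge p K F' a :=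
  map_Ge (flt_Ge _) (rn_z_Ge h) hf

theorem rn_HH (h : ∀ x, F x ≤ F' (j x)) (hf : f ∈ HH p K F La) : rn j f ∈ HH p K F' La :=
  map_HH rn_z_mx (rn_z_Ge h) hf


theorem rn_Wm (hf : f ∈ Wm p K U μ n) : rn j f ∈ Wm p K U' μ n := map_Wm rn_z_mx hf



/-- `N * N ≤ K` and `mx * N ^ 3 ≤ H` for `N` of weight `La` -/
theorem mx_sq_le_KK {N : Ideal (O p K U)} (h : N ≤ mx) (h' : N ≤ Ge p K F La) :
    N * N ≤ KK p K F La :=
  le_inf (by rw [sq]; exact Ideal.mul_mono h h) ((flt_Ge F).mul_le h' h' (by omega))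

theorem mx_cube_le_HH (h0 : ∀ v, 1 ≤ F v) {N : Ideal (O p K U)} (h : N ≤ mx)
    (h' : N ≤ Ge p K F La) : mx * N ^ 3 ≤ HH p K F La := by
  refine le_inf (Ideal.mul_le_right.trans (Ideal.pow_right_mono h 3)) ?_
  rw [pow_succ, sq]
  exact (flt_Ge F).mul_le (mx_le h0) ((flt_Ge F).mul_le (k := 3 * La)
    ((flt_Ge F).mul_le (k := 2 * La) h' h' (by omega)) h' (by omega)) (by omega)

end rn

variable {Γ : Type} [AddCommGroup Γ] {δ : Γ} {s : Fin 3 → Type} [∀ i, Fintype (s i)]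

/-- the inclusion of the wall variables into `V ⊕ B` -/
def cq (w : ∀ i, Wall p Γ δ (s i)) (t : Fin 3 → Bool) (q : Σ i, s i) : V w t ⊕ B w t :=
  cp w t q.1 q.2

/-- the passage `A2 → O (V ⊕ B)` -/
abbrev kap (w : ∀ i, Wall p Γ δ (s i)) (t : Fin 3 → Bool) :
    O p (ZMod p) (Σ i, s i) →ₐ[ZMod p] O p (ZMod p) (V w t ⊕ B w t) := rn (cq w t)

open Classical in
/-- the pure weight on `Σ i, s i`: far variables get `+ 1` -/
def F2 (w : ∀ i, Wall p Γ δ (s i)) (t : Fin 3 → Bool) (c : ℕ) (q : Σ i, s i) : ℕ :=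
  N0 c + (w q.1).F q.2 + if (w q.1).kd q.2 = some (!t q.1) then 1 else 0

/-- the weight of slot `i` on `Σ i, s i` -/
def o2 (w : ∀ i, Wall p Γ δ (s i)) (t : Fin 3 → Bool) (c : ℕ) (i : Fin 3) (q : Σ i, s i) : ℕ :=
  if q.1 = i then F2 w t c q else min (F2 w t c q) (N1 c)

/-- the main weight on `Σ i, s i` -/
def m2 (w : ∀ i, Wall p Γ δ (s i)) (t : Fin 3 → Bool) (c La : ℕ) (q : Σ i, s i) : ℕ :=
  if (w q.1).kd q.2 = none then La else F2 w t c q

/-- the negligible terms of `A2` -/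
abbrev H2 (w : ∀ i, Wall p Γ δ (s i)) (t : Fin 3 → Bool) (c La : ℕ) :
    Ideal (O p (ZMod p) (Σ i, s i)) := HH p (ZMod p) (m2 w t c La) La


variable {w : ∀ i, Wall p Γ δ (s i)} {t : Fin 3 → Bool} {c n La : ℕ}

theorem cq_far {q : Σ i, s i} (h : (w q.1).kd q.2 = some (!t q.1)) : cq w t q = inr ⟨q, h⟩ :=
  cp_far h

theorem cq_b (b : B w t) : cq w t b.1 = inr b := cq_far b.2

theorem cq_near (x0 : V w t) {q : Σ i, s i} (h : (w q.1).kd q.2 ≠ some (!t q.1)) :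
    cq w t q = inl ((vsV x0).em (q, false)) := cp_near x0 h

theorem cq_near' {q : Σ i, s i} (h : (w q.1).kd q.2 ≠ some (!t q.1)) :
    cq w t q = inl ⟨(q, false), ok_ne h⟩ := dif_neg h

theorem cq_y (x0 : V w t) {i : Fin 3} {y : s i} (h : (w i).kd y = none) :
    cq w t ⟨i, y⟩ = inl ((vsV x0).em (⟨i, y⟩, false)) := cp_near x0 (by simp [h])

theorem cq_inj : Function.Injective (cq w t) := fun q q' e => by
  by_cases h : (w q.1).kd q.2 = some (!t q.1) <;> by_cases h' : (w q'.1).kd q'.2 = some (!t q'.1)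
  · rw [cq_far h, cq_far h'] at e; exact congrArg Subtype.val (inr_injective e)
  · rw [cq_far h, cq_near' h'] at e; cases e
  · rw [cq_near' h, cq_far h'] at e; cases e
  · rw [cq_near' h, cq_near' h'] at e
    exact congrArg Prod.fst (congrArg Subtype.val (inl_injective e))

theorem cq_ne {x : V w t} (h : x.1.2 = true) : inl x ∉ Set.range (cq w t) := by
  rintro ⟨q, e⟩
  by_cases h' : (w q.1).kd q.2 = some (!t q.1)
  · rw [cq_far h'] at e; cases e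
  · rw [cq_near' h'] at e; cases e; simp at h

theorem cq_m (x0 : V w t) (q : Xm w t) : inl ((vsV x0).em q.1.1) ∉ Set.range (cq w t) := by
  rw [vsV_em x0 (xi_ok q.1)]; exact cq_ne q.2



theorem oA_cq (x0 : V w t) (i : Fin 3) (q : Σ i, s i) :
    (vsV x0).oA c i (cq w t q) = o2 w t c i q := by
  unfold o2 F2
  by_cases h : (w q.1).kd q.2 = some (!t q.1)
  · rw [cq_far h, if_pos h]; rfl
  · rw [cq_near' h, if_neg h]; rfl

theorem mA_cq (x0 : V w t) (q : Σ i, s i) : (vsV x0).mA c La (cq w t q) = m2 w t c La q := by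
  unfold m2 F2
  by_cases h : (w q.1).kd q.2 = some (!t q.1)
  · rw [cq_far h, if_pos h, if_neg (by simp [h])]; rfl
  · rw [cq_near' h, if_neg h]; rfl


theorem F2_far {i : Fin 3} {x : s i} (h : (w i).kd x = some (!t i)) :
    F2 w t c ⟨i, x⟩ = N0 c + (w i).F x + 1 := by rw [F2, if_pos h]

theorem le_F2 (q : Σ i, s i) : N0 c + (w q.1).F q.2 ≤ F2 w t c q := Nat.le_add_right _ _


theorem o2_own (i : Fin 3) (x : s i) : o2 w t c i ⟨i, x⟩ = F2 w t c ⟨i, x⟩ := if_pos rfl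



theorem o2_far {i : Fin 3} {x : s i} (h : (w i).kd x = some (!t i)) :
    o2 w t c i ⟨i, x⟩ = N0 c + (w i).F x + 1 := by rw [o2_own, F2_far h]

theorem le_o2_own (i : Fin 3) (x : s i) : N0 c + (w i).F x ≤ o2 w t c i ⟨i, x⟩ := by
  rw [o2_own]; exact le_F2 ⟨i, x⟩

theorem o2_le (i : Fin 3) (q : Σ i, s i) : o2 w t c i q ≤ F2 w t c q := by
  unfold o2; split_ifs <;> omega

theorem min_le_o2 (i : Fin 3) (q : Σ i, s i) : min (F2 w t c q) (N1 c) ≤ o2 w t c i q := by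
  unfold o2; split_ifs <;> omega

theorem le_o2 (i : Fin 3) (q : Σ i, s i) : N0 c ≤ o2 w t c i q := by
  have := min_le_o2 (w := w) (t := t) (c := c) i q
  have := le_F2 (w := w) (t := t) (c := c) q
  unfold N0 N1 at *
  omega



theorem Ty.F2_le_m2 (T : Ty w c n) (q : Σ i, s i) : F2 w t c q ≤ m2 w t c (Wt.La p c n) q := by
  unfold m2
  split_ifs with h
  · rw [F2, if_neg (by simp [h]), add_zero, T.F_y h]; exact (N1_lt_La p c n).le
  · rfl

theorem Ty.o2_le_m2 (T : Ty w c n) (i : Fin 3) (q : Σ i, s i) :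
    o2 w t c i q ≤ m2 w t c (Wt.La p c n) q := (o2_le i q).trans (T.F2_le_m2 q)

theorem Ty.le_m2 (T : Ty w c n) (q : Σ i, s i) : N0 c ≤ m2 w t c (Wt.La p c n) q :=
  (le_o2 0 q).trans (T.o2_le_m2 0 q)

theorem Ty.pow_le_H2 (T : Ty w c n) {k : ℕ} (hk : Wt.La p c n ≤ k) :
    (mx : Ideal (O p (ZMod p) (Σ i, s i))) ^ k ≤ H2 w t c (Wt.La p c n) := by
  have h1 := N1_lt_La p c n
  have h2 := T.pos
  have h3 : 120 * Wt.La p c n ≤ N0 c * k := Nat.mul_le_mul (by unfold N0; omega) hk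
  exact pow_le_HH T.le_m2 (by unfold N1 at h1; omega) (by omega)


variable {f : O p (ZMod p) (Σ i, s i)}

theorem kap_o (x0 : V w t) {i : Fin 3} {a : ℤ} (h : f ∈ Ge p (ZMod p) (o2 w t c i) a) :
    kap w t f ∈ Ge p (ZMod p) ((vsV x0).oA c i) a := rn_Ge (fun q => (oA_cq x0 i q).ge) h



theorem kap_H (x0 : V w t) (h : f ∈ H2 w t c La) : kap w t f ∈ (vsV x0).HS c La :=
  rn_HH (fun q => (mA_cq x0 q).ge) h



theorem pd_kap (q : Σ i, s i) (f : O p (ZMod p) (Σ i, s i)) :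
    pd (cq w t q) (kap w t f) = kap w t (pd q f) := pd_rn cq_inj q f

theorem pd_b_kap (b : B w t) (f : O p (ZMod p) (Σ i, s i)) :
    pd (inr b) (kap w t f) = kap w t (pd b.1 f) := by rw [← cq_b, pd_kap]

theorem pd_m_kap (x0 : V w t) (q : Xm w t) (f : O p (ZMod p) (Σ i, s i)) :
    pd (inl ((vsV x0).em q.1.1)) (kap w t f) = 0 := pd_rn_not (cq_m x0 q) f

theorem kap_z_near (x0 : V w t) {i : Fin 3} {x : s i} (h : (w i).kd x ≠ some (!t i)) :
    kap w t (z ⟨i, x⟩) = z (inl ((vsV x0).em (⟨i, x⟩, false))) := by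
  rw [rn_z, cq_near x0 (q := ⟨i, x⟩) h]

theorem kap_z_b (b : B w t) : kap w t (z b.1) = z (inr b) := by rw [rn_z, cq_b]

end N255.Wt

end
end

-- ▼ part N255/Wt/Pt
section

/-!
# Row 255 (helper76): `PVxZ` for the standard weights
-/

set_option autoImplicit false
set_option linter.unusedSectionVars false

noncomputable section

namespace N255.Wt

open Set Function N255.Dr N255.Dr.O Crest.Agent.N255.Tg Sum
open N255.Core (Wall Ok Xi Hi lin vw yi VxH)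
open N255.Sl (Zn)

variable {p : ℕ} [Fact p.Prime] {Γ : Type} [AddCommGroup Γ] {δ : Γ} {s : Fin 3 → Type}
  [∀ i, Fintype (s i)] {w : ∀ i, Wall p Γ δ (s i)} {t : Fin 3 → Bool} {c n : ℕ}

theorem vw_V (x0 : V w t) (La : ℕ) :
    vw w t La (vsV x0).em ((vsV x0).FV c) = (vsV x0).mw c La :=
  funext fun v => (vsV x0).vw_eq La (vsV_ok x0 v)

/-- A located vertex identity with the standard variables and weights. -/
structure PVxT (T : Ty w c n) (x0 : V w t) (κ α ι : Type) [Fintype α] where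
  io : ∀ i, O p (ZMod p) (s i) →ₐ[ZMod p] O p (ZMod p) (V w t ⊕ B w t)
  near : ∀ i x, (w i).kd x ≠ some (!t i) → Hi ((vsV x0).oA c i) (N0 c + (w i).F x)
    (io i (z x) - z (inl ((vsV x0).em (⟨i, x⟩, false))))
  far : ∀ i x, (w i).kd x = some (!t i) → Hi ((vsV x0).oA c i) (N0 c + (w i).F x) (io i (z x))
  hy : ∀ i x, (w i).kd x = none → io i (z x) - z (inl ((vsV x0).em (⟨i, x⟩, false))) ∈
    Ideal.span {f | ∃ y, (w i).kd y = none ∧ f = z (inl ((vsV x0).em (⟨i, y⟩, false)))} * mx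
  cc : ∀ i, s i → ZMod p
  hc : ∀ i x, t i = false → (w i).kd x = none → cc i x ≠ 0
  Ps : O p (ZMod p) (V w t)
  Ps2 : Ps ∈ (mx : Ideal (O p (ZMod p) (V w t))) ^ 2
  hPs : Ps ∈ Ge p (ZMod p) ((vsV x0).mw c (La p c n)) (3 * La p c n : ℕ)
  Z : Zn (O p (ZMod p) (V w t ⊕ B w t)) κ α ι
  ok : Z.Ok
  hW : ∀ k, Z.Wt k ≤ Wm p (ZMod p) (V w t ⊕ B w t) (N0 c) k
  hμ : Z.μ = N0 c
  hγ : Z.γ ≤ 3 * c
  be : B w t → α
  be_inj : Injective be
  eps : ∀ b, Z.ε (be b) = z (inr b)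
  eps0 : ∀ a, a ∉ range be → Z.ε a = 0
  hpa : ∀ b, T.pa b ≤ Z.pa (be b)
  hE : ∀ a, pz p (V w t) (B w t) (Z.E a) ∈ mx
  DE : ∀ b a, pz p (V w t) (B w t) (pd (inr b) (Z.E a)) ∈ mx
  G2 : GA w t io Ps ∈ mx ^ 2
  Gm : ∀ q : Xm w t, pd (inl ((vsV x0).em q.1.1)) (GA w t io Ps) ∈ mx ^ 2
  iso : ∀ b b', pd (inr b) (pd (inr b') (GA w t io Ps)) ∈ mx
  hD : ∀ i b, pz p (V w t) (B w t) (pd (inr b) (GA w t io Ps)) ∈
    Ge p (ZMod p) ((vsV x0).om c i) (N1 c)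
  aX : Xm w t → α
  pX : ∀ q, Z.pa (aX q) ≤ 3 * Z.γ
  J1 : ∀ a, a ∉ range be → a ∉ range aX → Z.pa a ≤ 3 * Z.γ →
    ∀ q : Xm w t, lin ((vsV x0).em q.1.1) (pz p (V w t) (B w t) (Z.E a)) = 0
  dir : ∀ a, a ∉ range be → a ∉ range aX → pz p (V w t) (B w t) (Z.E a) ∈ (sp fun q : Xi w t =>
      pz p (V w t) (B w t) (pd (inl ((vsV x0).em q.1))
        (Ga w t cc (fun q => z (inl ((vsV x0).em q))) + GA w t io Ps))) ⊔
      (vsV x0).K c (La p c n) ⊔ Z.At0 (pz p (V w t) (B w t)) (Wm p (ZMod p) (V w t) (N0 c)) a ∨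
    2 * La p c n + 3 * Z.γ ≤ Z.pa a
  id : Ga w t cc (fun q => z (inl ((vsV x0).em q))) + GA w t io Ps - ∑ a, Z.ε a * Z.E a ∈
    Z.Rs ⊔ (vsV x0).HS c (La p c n)

namespace PVxT

variable {T : Ty w c n} {x0 : V w t} {κ α ι : Type} [Fintype α] (v : PVxT T x0 κ α ι)

/-- all weight fields are filled in -/
def toZ : PVxZ w t (N0 c) (La p c n) (V w t) (B w t) κ α ι :=
  { v with
    em := (vsV x0).em
    inj := (vsV x0).inj
    FV := (vsV x0).FV c
    hF := (vsV x0).hF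
    hm := (vsV x0).hm T
    pos := T.hpos
    hLa := La_pos p c n
    om := (vsV x0).om c
    om_le := (vsV x0).om_le
    om_em := (vsV x0).om_em
    Bad := (vsV x0).Bad c
    cheap := (vsV x0).cheap
    bad := (vsV x0).bad T
    small := (vsV x0).small T
    ob := ob c
    c := v.cc
    hPs := by rw [core_Ge, vw_V]; exact v.hPs
    hW := fun k f hf => v.hμ ▸ map_Wm pz_mx (v.hW k hf)
    N1 := N1 c
    lt1 := v.hμ ▸ T.lt1
    le1 := v.hμ ▸ le1 c
    lo := v.hμ ▸ (vsV x0).le_om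
    fm := v.hμ ▸ (vsV x0).fm
    fv := v.hμ ▸ (vsV x0).fv T
    fy := v.hμ ▸ (vsV x0).fy T
    hob := fun i b => T.hob i b v.hγ (v.hpa b)
    HS := (vsV x0).HS c (La p c n)
    K := (vsV x0).K c (La p c n)
    H := (vsV x0).H c (La p c n)
    SH := (vsV x0).SH
    SK := fun _ hr b => v.hμ ▸ (vsV x0).SKw T hr b v.hγ (v.hpa b)
    hK1 := (vsV x0).hK1
    hKq := (vsV x0).hKq T
    KK := KK_mul (La_pos p c n)
    HK := (vsV x0).HK
    H2 := (vsV x0).H2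
    Hw := (vsV x0).Hw (vsV_ok x0)
    dir := fun a h1 h2 => v.hμ ▸ (v.dir a h1 h2).imp_right fun h =>
      (vsV x0).Wm_le_K T (by omega) }

/-- **the algebra of the producer after step B, standard weights** -/
theorem vxH : ∃ u : VxH w t (N0 c) (La p c n) (V w t), ∀ al : ∀ i, s i,
    (∀ i, (w i).kd (al i) = none) → u.cub al =
      aug (pd ((vsV x0).em (⟨0, al 0⟩, !t 0)) (pd ((vsV x0).em (⟨1, al 1⟩, !t 1))
        (pd ((vsV x0).em (⟨2, al 2⟩, !t 2)) v.Ps))) := v.toZ.vxH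

end PVxT

end N255.Wt

end
end

-- ▼ part N255/Ma/Vz
section

/-!
# Row 255 (helper39): extension of located ideals, step B over any ring of variables
-/

set_option autoImplicit false
open Set Function Sum

noncomputable section

namespace N255.Sl

namespace Zn

variable {A A' κ α β ι : Type*} [CommRing A] [CommRing A'] (Z : Zn A κ α ι) (φ : A →+* A')

/-- push along `φ` and adjoin macroscopic generators `e` -/
def xt (Wt : ℕ → Ideal A') (m : Ideal A') (e : β → A') : Zn A' κ (α ⊕ β) ι where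
  Wt := Wt
  m := m
  μ := Z.μ
  γ := Z.γ
  pos := Z.pos
  pa := Sum.elim Z.pa 0
  sl := Z.sl
  I k := (Z.I k).map φ
  E' k := (Z.E' k).map φ
  IK e := (Z.IK e).map φ
  ε := Sum.elim (fun a => φ (Z.ε a)) 0
  E := Sum.elim (fun a => φ (Z.E a)) e

variable {Z φ} {Wt : ℕ → Ideal A'} {m : Ideal A'} {e : β → A'}

theorem map_iSup₂_le {γ δ : Type*} {P : γ → Prop} {Q : δ → Prop} {f : γ → Ideal A} {g : δ → Ideal A'}
    (j : γ → δ) (h : ∀ a, P a → Q (j a)) (h' : ∀ a, (f a).map φ ≤ g (j a)) :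
    (⨆ (a) (_ : P a), f a).map φ ≤ ⨆ (a) (_ : Q a), g a := by
  simp only [Ideal.map_iSup]
  exact iSup₂_le fun a ha => (h' a).trans (le_iSup₂_of_le (f := fun a (_ : Q a) => g a) _ (h a ha) le_rfl)

theorem map_one_le (φ : A →+* A') (x : A) : (Ideal.span {x}).map φ ≤ Ideal.span {φ x} := by
  rw [Ideal.map_span, image_singleton]

theorem Ok.xt (h : Z.Ok) (fl : Fl Wt) (nil : IsNilpotent m) (mle : m ≤ Wt Z.μ)
    (hm : Z.m.map φ ≤ m) (e : β → A') : (Z.xt φ Wt m e).Ok := by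
  refine ⟨fl, nil, mle, h.gap, fun k => (Ideal.map_mono (h.hI k)).trans ?_,
    fun k => (Ideal.map_mono (h.hE1 k)).trans ?_, fun k hk => (Ideal.map_mono (h.hE2 k hk)).trans ?_⟩
  · rw [Ideal.map_sup]
    exact sup_le_sup_left (map_iSup₂_le (g := fun a => Ideal.span {(Z.xt φ Wt m e).ε a})
      (Q := fun a => Z.pos k ≤ (Z.xt φ Wt m e).pa a + Z.γ) inl (fun _ h => h)
      fun _ => map_one_le φ _) _
  · rw [Ideal.map_sup, Ideal.map_mul]
    exact sup_le_sup (map_iSup₂_le (g := fun a => Ideal.span {(Z.xt φ Wt m e).E a})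
      (Q := fun a => (Z.xt φ Wt m e).pa a ≤ Z.pos k + Z.γ) inl (fun _ h => h)
      fun _ => map_one_le φ _) (Ideal.mul_mono hm (map_iSup₂_le (g := fun k => (Z.I k).map φ)
        (Q := fun k' => Z.pos k' ≤ Z.pos k + Z.γ) id (fun _ h => h) fun _ => le_rfl))
  · rw [Ideal.map_sup, Ideal.map_mul]
    exact sup_le_sup_left (Ideal.mul_mono hm (map_iSup₂_le (g := fun k => (Z.I k).map φ)
      (Q := fun k' => Z.pos k ≤ Z.pos k' + Z.γ ∧ (Z.sl k' = Z.sl k ∨ Z.pos k' ≤ Z.γ)) id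
      (fun _ h => h) fun _ => le_rfl)) _

theorem map_Cb_xt (hW : ∀ n, (Z.Wt n).map φ ≤ Wt n) {g : α ⊕ β → ℕ} :
    (Cb Z.Wt (fun a => g (inl a)) Z.E).map φ ≤ Cb Wt g (Z.xt φ Wt m e).E := by
  rw [Cb, Ideal.map_iSup]
  refine iSup_le fun a => le_trans ?_ (le_Cb (inl a))
  rw [Ideal.map_mul]
  exact Ideal.mul_mono (hW _) (map_one_le φ _)

theorem map_Eps_xt : Z.Eps.map φ ≤ (Z.xt φ Wt m e).Eps :=
  Ideal.map_le_iff_le_comap.2 (Ideal.span_le.2 (by
    rintro _ ⟨a, rfl⟩; exact Ideal.subset_span ⟨inl a, rfl⟩))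

theorem map_Rs_xt (hW : ∀ n, (Z.Wt n).map φ ≤ Wt n) : Z.Rs.map φ ≤ (Z.xt φ Wt m e).Rs := by
  have h1 : Z.Loc.map φ ≤ (Z.xt φ Wt m e).Loc :=
    map_Cb_xt hW (g := fun a => (Z.xt φ Wt m e).pa a - (2 * Z.γ + Z.γ))
  rw [Rs, Ideal.map_sup, Ideal.map_sup, Ideal.map_mul, Ideal.map_mul, Ideal.map_iSup]
  refine sup_le (sup_le (iSup_le fun a => le_trans ?_ (eps_At (inl a)))
    ((Ideal.mul_mono h1 h1).trans Loc_sq)) ((Ideal.mul_mono map_Eps_xt map_Eps_xt).trans Eps_sq)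
  rw [Ideal.map_mul]
  exact Ideal.mul_mono (map_one_le φ _)
    (map_Cb_xt hW (g := fun b => (Z.xt φ Wt m e).pa b - Z.pa a + 1))

theorem map_Pu_xt (fl : Fl Wt) : Z.Pu.map φ ≤ (Z.xt φ Wt m e).Loc := by
  simp only [Pu, Ideal.map_iSup]
  exact iSup₂_le fun a ha => (map_one_le φ _).trans
    (fl.span_le_Cb (x := (Z.xt φ Wt m e).E) (a := inl a) (by simp [xt, ha.2]))

theorem new_xt (fl : Fl Wt) (b : β) : e b ∈ (Z.xt φ Wt m e).Loc :=
  fl.span_le_Cb (x := (Z.xt φ Wt m e).E) (a := inr b) (by simp [xt]) (Ideal.mem_span_singleton_self _)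

theorem sum_xt [Fintype α] [Fintype β] :
    ∑ a, (Z.xt φ Wt m e).ε a * (Z.xt φ Wt m e).E a = φ (∑ a, Z.ε a * Z.E a) := by
  simp [xt]

end Zn

open N255.Dr N255.Dr.O Crest.Agent.N255.Tg N255.Core Crest.Agent.N255.Io

variable {p : ℕ} [Fact p.Prime] {Γ : Type} [AddCommGroup Γ] {δ : Γ} {s : Fin 3 → Type}
  [∀ i, Fintype (s i)] {w : ∀ i, Wall p Γ δ (s i)} {N : ℕ} {κ α : Type*} [Fintype α]

/-- step B over a ring of variables -/
theorem stepBG {τ : Type} [Fintype τ] (f : ∀ i, Wf (w i) N) (t : Fin 3 → Bool)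
    {Z : Zn (O p (ZMod p) τ) κ α (Fin 3)} (hZ : Z.Ok) (hm : Z.m = mx) {o : Fin 3 → τ → ℕ}
    (pos : ∀ i x, 0 < N + (w i).F x) {io : ∀ i, O p (ZMod p) (s i) →ₐ[ZMod p] O p (ZMod p) τ}
    (hF : ∀ i x, io i (z x) ∈ Ge p (ZMod p) (o i) (N + (w i).F x : ℕ))
    {Y : Fin 3 → Ideal (O p (ZMod p) τ)} (hy : ∀ i x, (w i).kd x = none → io i (z x) ∈ Y i)
    {N1 : ℕ} (hN : ∀ i, (f i).I ≤ Ge p (ZMod p) (fun x => N + (w i).F x) N1)
    (hN' : ∀ i y y', (w i).kd y = none → (w i).kd y' = none → (w i).F y < (w i).F y' + N1)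
    {H : Ideal (O p (ZMod p) τ)} {H1 : Fin 3 → Ideal (O p (ZMod p) τ)}
    (hI : ∀ i, Z.IK i ≤ (f i).I.map (io i) ⊔ H1 i)
    (hH : ∀ i, ((f i).I.map (io i) ⊔ H1 i) * H1 i ≤ H)
    (hK : ∀ i, (f i).I.map (io i) * (f i).KU.map (io i) ≤ H) {G : O p (ZMod p) τ}
    (hP : ∑ i, (if t i = true then io i (w i).W else -io i (w i).W) + G - ∑ b, Z.ε b * Z.E b ∈
      Z.Qd ⊔ Z.Eps * Z.Eps ⊔ H) :
    ∃ jo : ∀ i, O p (ZMod p) (s i) →ₐ[ZMod p] O p (ZMod p) τ,
      (∀ i x, jo i (z x) - io i (z x) ∈ Ge p (ZMod p) (o i) ((N + (w i).F x : ℕ) + 1)) ∧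
      (∀ i x, (w i).kd x = none → jo i (z x) - io i (z x) ∈ Y i * mx) ∧
      ∑ i, (if t i = true then jo i (w i).W else -jo i (w i).W) + G - ∑ b, Z.ε b * Z.E b ∈
        Z.Rs ⊔ H := by
  have hx : ∀ i x, io i (z x) ∈ mx := fun i x => Ge_le_mx (by have := pos i x; omega) (hF i x)
  obtain ⟨jo, h, k1, -, k3, k4, k5⟩ := stepB f t hZ (fun x h => pow_p (hm ▸ h))
    (fun i x => hm ▸ hx i x) (fun i => flt_Ge (o i)) hF hI hH hK hP
  have ky : ∀ i y, (w i).kd y = none → ∀ J : Ideal (O p (ZMod p) τ),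
      (∀ y', (w i).kd y' = none → io i (z y') * h i y y' ∈ J) → jo i (z y) - io i (z y) ∈ J :=
    fun i y hy J hJ => by
    rw [k4 i y hy, ys, add_sub_cancel_left]
    refine sum_mem fun y' _ => ?_
    split_ifs with h'
    exacts [hJ y' h', zero_mem _]
  refine ⟨jo, fun i x => ?_, fun i y hy' => ky i y hy' _ fun y' h' => Ideal.mul_mem_mul (hy i y' h')
    ((Ideal.map_le_iff_le_comap.2 fun g hg => map_mx (io i) (hx i) ((f i).hI hg) : _ ≤ mx)
      (k3 i y y')), k5⟩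
  by_cases hx : (w i).kd x = none
  swap
  · exact (k1 i x hx).2
  refine ky i x hx _ fun y' hy' => (flt_Ge _).mul_le (m := N1) le_rfl
    (Ideal.map_le_iff_le_comap.2 fun g hg => map_Ge (flt_Ge _) (hF i) (hN i hg))
    (by have := hN' i x y' hx hy'; omega) (Ideal.mul_mem_mul (hF i y') (k3 i x y'))


end N255.Sl

end
end

-- ▼ part N255/Ma/Va
section

/-!
# Row 255 (helper39): the algebra at a vertex, from the located identity without `m` to `VxH`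
-/

set_option autoImplicit false
open Set Function Sum

noncomputable section

namespace Crest.Agent.N255.Ma

open _root_.N255.Dr _root_.N255.Dr.O Tg _root_.N255.Wt
open _root_.N255.Core (Wall Ok Xi Hi lin vw yi VxH)
open _root_.N255.Sl (Zn Wf W0w)

variable {p : ℕ} [Fact p.Prime] {Γ : Type} [AddCommGroup Γ] {δ : Γ} {s : Fin 3 → Type}
  [∀ i, Fintype (s i)]

/-- the ring of all wall variables -/
abbrev A2 (p : ℕ) (s : Fin 3 → Type) : Type := O p (ZMod p) (Σ i, s i)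

/-- the ring with the variables `m` -/
abbrev A3 (w : ∀ i, Wall p Γ δ (s i)) (t : Fin 3 → Bool) : Type := O p (ZMod p) (V w t ⊕ B w t)

/-- the variables `y` and `m` -/
abbrev Ny (w : ∀ i, Wall p Γ δ (s i)) (t : Fin 3 → Bool) : Type :=
  {v : V w t // (w v.1.1.1).kd v.1.1.2 = none}

variable {w : ∀ i, Wall p Γ δ (s i)} {t : Fin 3 → Bool}

/-- the ideal of all `y` and `m` (this is `Gv.N`) -/
def NN (x0 : V w t) : Ideal (O p (ZMod p) (V w t)) :=
  Ideal.span {f | ∃ q, Ok w t q ∧ (w q.1.1).kd q.1.2 = none ∧ f = z ((vsV x0).em q)}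

/-- the Gaussian generators `w - m` -/
def xm (x0 : V w t) (wv : Xm w t → V w t) (q : Xm w t) : O p (ZMod p) (V w t) :=
  z (wv q) - z ((vsV x0).em q.1.1)

/-- the macroscopic ideal over the ring with `m` -/
def XX (x0 : V w t) (wv : Xm w t → V w t) {κ α : Type} (Z : Zn (A2 p s) κ α (Fin 3)) :
    Ideal (A3 w t) :=
  Z.Pu.map (kap w t) ⊔ (sp (xm x0 wv) ⊔ NN x0 * NN x0).map (rn inl : _ →ₐ[ZMod p] A3 w t)

/-- **The algebraic data at a vertex.**  Everything before `cf` lives over `A2` (no `m`). -/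
structure VA {c n : ℕ} (T : Ty w c n) (x0 : V w t) (κ α : Type) [Fintype α] where
  f : ∀ i, Wf (w i) (N0 c)
  W0 : ∀ i, W0w (w i)
  hN : ∀ i, (f i).I ≤ Ge p (ZMod p) (fun x => N0 c + (w i).F x) (N1 c)
  hK : ∀ i, (f i).KU ≤ mx ^ 2 ⊓ Ge p (ZMod p) (fun x => N0 c + (w i).F x) (3 * La p c n + 1)
  io : ∀ i, O p (ZMod p) (s i) →ₐ[ZMod p] A2 p s
  hy : ∀ i x, (w i).kd x = none → io i (z x) = z ⟨i, x⟩
  adm : ∀ i x, (w i).kd x ≠ none → Io.Adm T id i x (io i (z x) - z ⟨i, x⟩)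
  Z : Zn (A2 p s) κ α (Fin 3)
  ok : Z.Ok
  hm : Z.m = mx
  hγ : 2 * Z.γ ≤ 3 * c
  be : B w t → α
  be_inj : Injective be
  eps : ∀ b, Z.ε (be b) = z b.1
  eps0 : ∀ a, a ∉ range be → Z.ε a = 0
  pa : ∀ b, (T.σ b.1.1).sc b.1.2 ≤ Z.pa (be b)
  hE : ∀ a, Z.E a ∈ mx
  DE : ∀ (b : B w t) a, pd b.1 (Z.E a) ∈ mx
  hI : ∀ i, Z.IK i ≤ (f i).I.map (io i) ⊔
    mx ^ 2 ⊓ Ge p (ZMod p) (m2 w t c (La p c n)) (3 * La p c n + 1)
  A : A2 p s
  H : Ideal (A2 p s)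
  id : ∑ i, (if t i = true then io i (w i).W else -io i (w i).W) + A - ∑ a, Z.ε a * Z.E a ∈
    Z.Qd ⊔ Z.Eps * Z.Eps ⊔ H
  cf : ∀ i, s i → ZMod p
  hc : ∀ i x, t i = false → (w i).kd x = none → cf i x ≠ 0
  Ps : O p (ZMod p) (V w t)
  Ps3 : Ps ∈ NN x0 * NN x0 * NN x0
  wv : Xm w t → V w t
  hH : H.map (kap w t) ≤ XX x0 wv Z * XX x0 wv Z ⊔ (vsV x0).HS c (La p c n)
  hA : rn inl (Ga w t cf (fun q => z ((vsV x0).em q)) + Ps) - kap w t A ∈
    XX x0 wv Z * XX x0 wv Z ⊔ (vsV x0).HS c (La p c n)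
  row : ∀ a, a ∉ range be → pz p _ _ (kap w t (Z.E a)) ∈
    (sp fun q : Xm w t => pd ((vsV x0).em q.1.1) (Ga w t cf (fun q => z ((vsV x0).em q)) + Ps)) ⊔
      (vsV x0).K c (La p c n) ⊔ mx * sp (xm x0 wv) ∨ La p c n + 3 * Z.γ ≤ Z.pa a

theorem NN_eq (x0 : V w t) : NN x0 = sp fun v : Ny w t => z v.1 := by
  refine congrArg Ideal.span (Set.ext fun f => ⟨?_, ?_⟩)
  · rintro ⟨q, h1, h2, rfl⟩
    exact ⟨⟨⟨q, h1⟩, h2⟩, by rw [vsV_em x0 h1]⟩
  · rintro ⟨⟨⟨q, h1⟩, h2⟩, rfl⟩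
    exact ⟨q, h1, h2, by rw [vsV_em x0 h1]⟩

theorem NN_mx (x0 : V w t) : NN x0 ≤ mx := NN_eq x0 ▸ sp_le.2 fun _ => z_mem _

theorem NN_Ge (x0 : V w t) (c La : ℕ) : NN x0 ≤ Ge p (ZMod p) ((vsV x0).mw c La) La :=
  NN_eq x0 ▸ sp_le.2 fun v => by
    have := z_mem_Ge (p := p) (K := ZMod p) ((vsV x0).mw c La) v.1
    rwa [show (vsV x0).mw c La v.1 = La from if_pos v.2] at this

namespace VA

variable {c n : ℕ} {T : Ty w c n} {x0 : V w t} {κ α : Type} [Fintype α] (v : VA T x0 κ α)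

theorem ho (i : Fin 3) (a : Σ i, s i) : min (N0 c + (w a.1).F a.2) (N1 c) ≤ o2 w t c i a := by
  have := min_le_o2 (w := w) (t := t) (c := c) i a
  have := le_F2 (w := w) (t := t) (c := c) a
  omega

theorem near (i : Fin 3) (x : s i) :
    Hi (o2 w t c i) (N0 c + (w i).F x) (v.io i (z x) - z ⟨i, x⟩) :=
  Io.near_adm (T := T) (inc := _root_.id) (o := o2 w t c) v.hy v.adm le_o2 ho i x

theorem hF (i : Fin 3) (x : s i) :
    v.io i (z x) ∈ Ge p (ZMod p) (o2 w t c i) (N0 c + (w i).F x : ℕ) := by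
  simpa using add_mem ((flt_Ge _).anti (by omega) (hi_Ge.1 (v.near i x))) ((flt_Ge _).anti
    (show ((N0 c + (w i).F x : ℕ) : ℤ) ≤ o2 w t c i ⟨i, x⟩ by
      have := le_o2_own (w := w) (t := t) (c := c) i x; omega)
    (z_mem_Ge (p := p) (K := ZMod p) (o2 w t c i) ⟨i, x⟩))

/-- the zones with doubled positions -/
abbrev Z2 : Zn (A2 p s) κ α (Fin 3) := v.Z.dbl (Wm p (ZMod p) _ (N0 c)) (N0 c)

theorem ok2 : v.Z2.Ok :=
  v.ok.dbl (fl_Wm _) (v.hm ▸ mx_le_Wm _) (by have := v.hγ; have := T.pos; unfold N0; omega)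

/-- step B without `m` -/
theorem stepB : ∃ jo : ∀ i, O p (ZMod p) (s i) →ₐ[ZMod p] A2 p s,
    (∀ i x, jo i (z x) - z ⟨i, x⟩ ∈ Ge p (ZMod p) (o2 w t c i) ((N0 c + (w i).F x : ℕ) + 1)) ∧
    (∀ i x, (w i).kd x = none → jo i (z x) - z ⟨i, x⟩ ∈
      Ideal.span {g | ∃ y, (w i).kd y = none ∧ g = z ⟨i, y⟩} * mx) ∧
    ∑ i, (if t i = true then jo i (w i).W else -jo i (w i).W) + v.A - ∑ a, v.Z.ε a * v.Z.E a ∈
      v.Z2.Rs ⊔ (v.H ⊔ H2 w t c (La p c n)) := by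
  have hx : ∀ i x, v.io i (z x) ∈ mx := Io.io_z_mx (T := T) (inc := _root_.id) v.hy v.adm
  have h1 : ∀ i, (v.f i).I.map (v.io i) ≤ mx := fun i =>
    Ideal.map_le_iff_le_comap.2 fun g hg => map_mx (v.io i) (hx i) ((v.f i).hI hg)
  have h2 : mx * (mx ^ 2 ⊓ Ge p (ZMod p) (m2 w t c (La p c n)) (3 * La p c n + 1)) ≤
      v.H ⊔ H2 w t c (La p c n) := le_sup_of_le_right (le_inf
    ((Ideal.mul_mono_right inf_le_left).trans (pow_succ' (mx : Ideal (A2 p s)) 2).ge)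
    (Ideal.mul_le_right.trans inf_le_right))
  obtain ⟨jo, k1, k2, k3⟩ := _root_.N255.Sl.stepBG v.f t v.ok2 v.hm T.hpos v.hF
    (Y := fun i => Ideal.span {g | ∃ y, (w i).kd y = none ∧ g = z ⟨i, y⟩})
    (fun i x hx => Ideal.subset_span ⟨x, hx, v.hy i x hx⟩) v.hN
    (fun i y y' h h' => by have := T.F_y h; have := T.F_y h'; have := T.lt1; omega)
    (H := v.H ⊔ H2 w t c (La p c n)) v.hI
    (fun i => (Ideal.mul_mono_left (sup_le (h1 i) (inf_le_left.trans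
      (Ideal.pow_le_self two_ne_zero)))).trans h2)
    (fun i => (Ideal.mul_mono (h1 i) (Ideal.map_le_iff_le_comap.2 fun g hg =>
      Ideal.mem_comap.2 (Ideal.mem_inf.2 ⟨map_mx_pow _ (hx i) (v.hK i hg).1,
        Ge_mono (T.o2_le_m2 i) le_rfl (map_Ge (flt_Ge _) (v.hF i) (v.hK i hg).2)⟩))).trans h2)
    (G := v.A) (SetLike.le_def.1 (sup_le_sup_left le_sup_left _) v.id)
  exact ⟨jo, fun i x => by simpa using add_mem (k1 i x) (hi_Ge.1 (v.near i x)),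
    fun i x hx => v.hy i x hx ▸ k2 i x hx, k3⟩

/-- the new generators -/
def ng : Xm w t ⊕ Ny w t × Ny w t → O p (ZMod p) (V w t) :=
  Sum.elim (xm x0 v.wv) fun y => z y.1.1 * z y.2.1

theorem ng_mx (b : Xm w t ⊕ Ny w t × Ny w t) : v.ng b ∈ mx := by
  rcases b with q | y
  exacts [sub_mem (z_mem _) (z_mem _), Ideal.mul_mem_left _ _ (z_mem _)]

/-- the zones over the ring with `m` -/
def Z3 : Zn (A3 w t) κ (α ⊕ Xm w t ⊕ Ny w t × Ny w t) (Fin 3) :=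
  v.Z2.xt (kap w t : A2 p s →+* A3 w t) (Wm p (ZMod p) _ (N0 c)) mx fun b => rn inl (v.ng b)

theorem XX_le : XX x0 v.wv v.Z ≤ v.Z3.Loc := by
  refine sup_le (le_trans (le_of_eq ?_) (Zn.map_Pu_xt (fl_Wm _))) (Ideal.map_le_iff_le_comap.2
    (sup_le (sp_le.2 fun q => Zn.new_xt (fl_Wm _) (inl q)) ?_))
  · simp only [Zn.Pu, Zn.dbl, mul_eq_zero, two_ne_zero, false_or]; rfl
  · rw [NN_eq, sp, Ideal.span_mul_span', Ideal.span_le]
    rintro _ ⟨_, ⟨a, rfl⟩, _, ⟨b, rfl⟩, rfl⟩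
    exact Zn.new_xt (fl_Wm _) (inr (a, b))

theorem Ps_cube : v.Ps ∈ (mx : Ideal (O p (ZMod p) (V w t))) ^ 3 := by
  rw [pow_succ, sq]
  exact Ideal.mul_mono (Ideal.mul_mono (NN_mx x0) (NN_mx x0)) (NN_mx x0) v.Ps3

theorem Phi_eq (jo : ∀ i, O p (ZMod p) (s i) →ₐ[ZMod p] A2 p s) :
    Ga w t v.cf (fun q => z (inl ((vsV x0).em q))) + GA w t (fun i => (kap w t).comp (jo i)) v.Ps =
      rn inl (Ga w t v.cf (fun q => z ((vsV x0).em q)) + v.Ps) +
        kap w t (∑ i, if t i = true then jo i (w i).W else -jo i (w i).W) := by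
  simp only [Ga, GA, map_add, map_sum, apply_ite (kap w t), apply_ite (rn inl), map_neg, map_smul,
    map_mul, map_zero, rn_z, AlgHom.comp_apply]
  ring

/-- **the algebra at a vertex** -/
theorem vxH : ∃ u : VxH w t (N0 c) (La p c n) (V w t), ∀ al : ∀ i, s i,
    (∀ i, (w i).kd (al i) = none) → u.cub al = aug (pd ((vsV x0).em (⟨0, al 0⟩, !t 0))
      (pd ((vsV x0).em (⟨1, al 1⟩, !t 1)) (pd ((vsV x0).em (⟨2, al 2⟩, !t 2)) v.Ps))) := by
  obtain ⟨jo, k1, k2, k3⟩ := v.stepB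
  have hy : ∀ i x, (w i).kd x = none → (kap w t).comp (jo i) (z x) -
      z (inl ((vsV x0).em (⟨i, x⟩, false))) ∈ Ideal.span
        {f | ∃ y, (w i).kd y = none ∧ f = z (inl ((vsV x0).em (⟨i, y⟩, false)))} * mx := fun i x hx => by
    have := Ideal.mem_map_of_mem (kap w t) (k2 i x hx)
    rw [map_sub, kap_z_near x0 (by simp [hx]), Ideal.map_mul] at this
    refine Ideal.mul_mono (Ideal.map_le_iff_le_comap.2 (Ideal.span_le.2 ?_))
      (Ideal.map_le_iff_le_comap.2 fun f => rn_mem _) this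
    rintro _ ⟨y, hy, rfl⟩
    exact Ideal.subset_span ⟨y, hy, kap_z_near x0 (by simp [hy])⟩
  obtain ⟨g1, g2, g3, g4⟩ := _root_.N255.Sl.hs_weak (em := (vsV x0).em) v.W0
    (jo := fun i => (kap w t).comp (jo i)) (fun i x => rn_mem _ (by
      simpa using add_mem (Ge_le_mx (by omega) (k1 i x)) (z_mem ⟨i, x⟩))) hy
    (fun i x q => pd_m_kap x0 q _) v.Ps_cube
  have hL := N1_lt_La p c n
  refine PVxT.vxH (T := T) (x0 := x0) (κ := κ) (α := α ⊕ Xm w t ⊕ Ny w t × Ny w t) (ι := Fin 3)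
    { io := fun i => (kap w t).comp (jo i)
      near := fun i x hx => ?_, far := fun i x hx => ?_, hy := hy
      cc := v.cf, hc := v.hc, Ps := v.Ps
      Ps2 := Ideal.pow_le_pow_right (by omega) v.Ps_cube
      hPs := (flt_Ge _).mul_le ((flt_Ge _).mul_le (NN_Ge x0 c _) (NN_Ge x0 c _) le_rfl)
        (NN_Ge x0 c _) (by omega) v.Ps3
      Z := v.Z3
      ok := v.ok2.xt (fl_Wm _) mx_nil (mx_le_Wm _)
        (v.hm.symm ▸ Ideal.map_le_iff_le_comap.2 fun f => rn_mem _) _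
      hW := fun _ => le_rfl, hμ := rfl, hγ := v.hγ
      be := fun b => inl (v.be b)
      be_inj := inl_injective.comp v.be_inj
      eps := fun b => (congrArg (kap w t) (v.eps b)).trans (kap_z_b b)
      eps0 := ?_
      hpa := fun b => Nat.mul_le_mul_left 2 (v.pa b)
      hE := ?_, DE := ?_, G2 := g1, Gm := g2, iso := g3
      hD := fun i => g4 _ (N0 c) _ ((vsV x0).le_om i) (le1 c) fun j y h => ?_
      aX := fun q => inr (inl q)
      pX := fun _ => Nat.zero_le _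
      J1 := ?_, dir := ?_, id := ?_ }
  · have := kap_o x0 (k1 i x)
    rwa [map_sub, kap_z_near x0 hx, ← hi_Ge] at this
  · refine hi_Ge.2 (kap_o x0 ?_)
    have := z_mem_Ge (p := p) (K := ZMod p) (o2 w t c i) ⟨i, x⟩
    rw [o2_far hx] at this
    simpa using add_mem (k1 i x) this
  · rintro (a | a) ha
    · exact (congrArg (kap w t) (v.eps0 a (by rintro ⟨b, rfl⟩; exact ha ⟨b, rfl⟩))).trans (map_zero _)
    · rfl
  · rintro (a | a)
    exacts [map_mx _ pz_mx (rn_mem _ (v.hE a)), map_mx _ pz_mx (rn_mem _ (v.ng_mx a))]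
  · rintro b (a | a)
    · exact map_mx _ pz_mx ((pd_b_kap b _).symm ▸ rn_mem _ (v.DE b a))
    · rw [show pd (inr b) (v.Z3.E (inr a)) = 0 from pd_rn_not (by simp) _, map_zero]
      exact zero_mem _
  · have h1 := min_le_oQ (w := w) (c := c) i (⟨j, y⟩, false)
    rw [FQ_u, T.F_y h, min_self] at h1
    rwa [(vsV x0).om_em' i (ok_y h)]
  · rintro (a | q | y) - h - q'
    · rw [lin, pd_pz, show pd _ (v.Z3.E (inl a)) = 0 from pd_m_kap x0 q' _, map_zero, map_zero]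
    · exact absurd ⟨q, rfl⟩ h
    · rw [show pz p _ _ (v.Z3.E (inr (inr y))) = _ from map_rn_inl pz_inl _]
      exact mem_mx.1 (pd_sq (sq (mx : Ideal (O p (ZMod p) (V w t))) ▸
        Ideal.mul_mem_mul (z_mem _) (z_mem _)) _)
  · rintro (a | q | y) h h'
    · refine (v.row a (by rintro ⟨b, rfl⟩; exact h ⟨b, rfl⟩)).imp (fun h => SetLike.le_def.1
        (sup_le_sup (sup_le_sup_right (sp_le.2 fun q => ?_) _) ?_) h) fun h => ?_
      · convert mem_sp _ q.1 using 1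
        rw [v.Phi_eq, map_add (pd (inl _)), pd_m_kap, add_zero, ← pd_pz, map_rn_inl pz_inl]
      · rw [sp, _root_.N255.Sl.span_range_eq, Ideal.mul_iSup]
        refine iSup_le fun q => le_trans (Ideal.mul_mono ?_ (le_of_eq ?_))
          (_root_.N255.Sl.le_Cb (inr (inl q)))
        · exact mx_le_Ge' fun _ => by have := T.N0_pos; simp [Z3, Zn.xt]; omega
        · exact congrArg (fun x => Ideal.span {x}) (map_rn_inl pz_inl _).symm
      · change 2 * La p c n + 3 * (2 * v.Z.γ) ≤ 2 * v.Z.pa a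
        omega
    · exact absurd ⟨q, rfl⟩ h'
    · refine Or.inl (Ideal.mem_sup_left (Ideal.mem_sup_right ?_))
      rw [show pz p _ _ (v.Z3.E (inr (inr y))) = _ from map_rn_inl pz_inl _]
      exact mx_sq_le_KK (NN_mx x0) (NN_Ge x0 c _) (NN_eq x0 ▸
        Ideal.mul_mem_mul (mem_sp _ y.1) (mem_sp _ y.2))
  · have h1 : XX x0 v.wv v.Z * XX x0 v.wv v.Z ⊔ (vsV x0).HS c (La p c n) ≤
        v.Z3.Rs ⊔ (vsV x0).HS c (La p c n) :=
      sup_le_sup_right ((Ideal.mul_mono v.XX_le v.XX_le).trans Zn.Loc_sq) _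
    have h2 := Ideal.mem_map_of_mem (kap w t) k3
    rw [Ideal.map_sup, Ideal.map_sup] at h2
    have h3 := (sup_le (le_sup_of_le_left (Zn.map_Rs_xt fun k => Ideal.map_le_iff_le_comap.2
      fun f => rn_Wm)) (sup_le (v.hH.trans h1) (le_sup_of_le_right
        (Ideal.map_le_iff_le_comap.2 fun f => kap_H x0))) : _ ≤ v.Z3.Rs ⊔ _) h2
    rw [v.Phi_eq, show ∑ a, v.Z3.ε a * v.Z3.E a = kap w t (∑ a, v.Z.ε a * v.Z.E a) from Zn.sum_xt]
    convert add_mem (h1 v.hA) h3 using 1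
    rw [map_sub, map_add (kap w t)]
    ring

end VA

end Crest.Agent.N255.Ma

end
end

-- ▼ part N255/Cs/IdA
section

/-!
# Row 255 (helper31): change of rings for located data, change of the meridians in the action
-/

set_option autoImplicit false
open Finset

noncomputable section

namespace N255.Sl.Zn

variable {A A' : Type*} [CommRing A] [CommRing A'] {κ α β ι : Type*} (Z : Zn A κ α ι)

/-- the image of located data -/
def map (φ : A →+* A') : Zn A' κ α ι where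
  Wt n := (Z.Wt n).map φ
  m := Z.m.map φ
  μ := Z.μ
  γ := Z.γ
  pos := Z.pos
  pa := Z.pa
  sl := Z.sl
  I k := (Z.I k).map φ
  E' k := (Z.E' k).map φ
  IK e := (Z.IK e).map φ
  ε a := φ (Z.ε a)
  E a := φ (Z.E a)

/-- new macroscopic generators -/
def ad (e : β → A) : Zn A κ (α ⊕ β) ι :=
  { Z with pa := Sum.elim Z.pa 0, ε := Sum.elim Z.ε 0, E := Sum.elim Z.E e }

variable {Z}

theorem map_one' (φ : A →+* A') (x : A) : (Ideal.span {x}).map φ = Ideal.span {φ x} := by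
  rw [Ideal.map_span, Set.image_singleton]

theorem Ok.map (h : Z.Ok) (φ : A →+* A') : (Z.map φ).Ok where
  fl := ⟨by simp [Zn.map, h.fl.zero, Ideal.map_top], fun e => Ideal.map_mono (h.fl.anti e),
    fun a b => (Ideal.map_mul φ _ _).ge.trans (Ideal.map_mono (h.fl.mul a b))⟩
  nil := by
    obtain ⟨n, hn⟩ := h.nil
    exact ⟨n, by simp [Zn.map, ← Ideal.map_pow, hn]⟩
  mle := Ideal.map_mono h.mle
  gap := h.gap
  hI k := by
    simpa only [Zn.map, Ideal.map_sup, Ideal.map_iSup, map_one'] using Ideal.map_mono (f := φ) (h.hI k)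
  hE1 k := by
    simpa only [Zn.map, Ideal.map_sup, Ideal.map_iSup, Ideal.map_mul, map_one'] using
      Ideal.map_mono (f := φ) (h.hE1 k)
  hE2 k hk := by
    simpa only [Zn.map, Ideal.map_sup, Ideal.map_iSup, Ideal.map_mul] using
      Ideal.map_mono (f := φ) (h.hE2 k hk)

theorem map_Eps (φ : A →+* A') : (Z.map φ).Eps = Z.Eps.map φ := by
  rw [Eps, Eps, Ideal.map_span, ← Set.range_comp]; rfl

theorem map_Loc (φ : A →+* A') : (Z.map φ).Loc = Z.Loc.map φ := by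
  simp only [Loc, M, Cb, Ideal.map_iSup, Ideal.map_mul, map_one']; rfl

theorem map_Rs (φ : A →+* A') : (Z.map φ).Rs = Z.Rs.map φ := by
  simp only [Rs, map_Eps, map_Loc, At, Cb, Ideal.map_sup, Ideal.map_iSup, Ideal.map_mul, map_one']; rfl

theorem Ok.ad (h : Z.Ok) (e : β → A) : (Z.ad e).Ok := by
  refine ⟨h.fl, h.nil, h.mle, h.gap, fun k => (h.hI k).trans (sup_le_sup_left ?_ _),
    fun k => (h.hE1 k).trans (sup_le_sup_right ?_ _), h.hE2⟩
  · exact iSup₂_le fun a ha => le_iSup₂_of_le (Sum.inl a) ha le_rfl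
  · exact iSup₂_le fun a ha => le_iSup₂_of_le (Sum.inl a) ha le_rfl

theorem Loc_ad (e : β → A) : Z.Loc ≤ (Z.ad e).Loc :=
  iSup_le fun a => le_iSup_of_le (Sum.inl a) le_rfl

theorem Rs_ad (e : β → A) : Z.Rs ≤ (Z.ad e).Rs := by
  have h : Z.Eps ≤ (Z.ad e).Eps := Ideal.span_mono (by rintro _ ⟨a, rfl⟩; exact ⟨Sum.inl a, rfl⟩)
  refine sup_le_sup (sup_le_sup (iSup_le fun a => le_iSup_of_le (Sum.inl a) ?_)
    (Ideal.mul_mono (Loc_ad e) (Loc_ad e))) (Ideal.mul_mono h h)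
  exact Ideal.mul_mono_right (iSup_le fun b => le_iSup_of_le (Sum.inl b) le_rfl)

theorem Ok.E_mem_Loc (h : Z.Ok) {a : α} (ha : Z.pa a ≤ 3 * Z.γ) : Z.E a ∈ Z.Loc :=
  h.fl.span_le_Cb (g := fun a => Z.pa a - (2 * Z.γ + Z.γ)) (x := Z.E) (by omega)
    (Ideal.mem_span_singleton_self _)


theorem Ok.ad_le (h : Z.Ok) (e : β → A) : Ideal.span (Set.range e) ≤ (Z.ad e).Loc :=
  Ideal.span_le.2 (by
    rintro _ ⟨b, rfl⟩
    exact (h.ad e).E_mem_Loc (a := Sum.inr b) (Nat.zero_le _))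

theorem sum_ad [Fintype α] [Fintype β] (e : β → A) :
    ∑ a, (Z.ad e).ε a * (Z.ad e).E a = ∑ a, Z.ε a * Z.E a := by
  simp [ad, Fintype.sum_sum_type]

theorem Pu_adj {X : Ideal A} {e : ι} {r : α → A} (h0 : ∀ a, Z.ε a = 0 → r a = 0) :
    (Z.adj X e r).Pu = Z.Pu :=
  iSup_congr fun a => iSup_congr_Prop Iff.rfl fun ha => by
    rw [show (Z.adj X e r).E a = Z.E a + r a from rfl, h0 a ha.1, add_zero]

end N255.Sl.Zn

namespace Crest.Agent.N255.Cs

open Tw Tp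

variable {X : Type} [TopologicalSpace X] {K : Type} [CommRing K] {p : ℕ} [hpp : Fact p.Prime]
  {O : Type} [CommRing O] [Algebra K O] {G : Gr (Gm p) K O} {m N Y Ξ : Ideal O}

namespace Vt

variable {t : Fin 3 → Bool} (V : Vt K X t) {x x' a : Fin 3 → (Tw G)ˣ}

theorem la_sub (hm : G.Id m) (hΞ : G.Id Ξ) (hx : ∀ j, x j ∈ U hm) (hx' : ∀ j, x' j ∈ U hm)
    (h : ∀ j, In Ξ ((x j).val - (x' j).val)) (j : Fin 3) : In (m * Ξ) (V.la x j - V.la x' j) := by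
  have k : ∀ i i', In (m * Ξ) (((x i).val - 1) * ((x i').val - 1) -
      ((x' i).val - 1) * ((x' i').val - 1)) := fun i i' =>
    In.eq (In.add (o_mul_mem hm hΞ (hx i) (h i')) (mul_comm Ξ m ▸ o_mul_mem hΞ hm (h i) (hx' i')))
      (by noncomm_ring)
  rw [la, la, ← smul_sub]
  exact In.zsmul (In.eq (In.sub (k (j + 1) (j + 2)) (k (j + 2) (j + 1))) (by abel)) _

theorem S_upd (x : Fin 3 → (Tw G)ˣ) (j : Fin 3) (y : (Tw G)ˣ) :
    V.S x - V.S (Function.update x j y) = (V.T j).s • lam G (((x j).val - y.val) * V.la x j) := by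
  have : V.la (Function.update x j y) j = V.la x j := by
    rw [la, la, Function.update_of_ne (by fin_cases j <;> decide),
      Function.update_of_ne (by fin_cases j <;> decide)]
  rw [V.S_eq x j, V.S_eq _ j, this, Function.update_self, ← smul_sub, ← map_sub, ← sub_mul,
    sub_sub_sub_cancel_right]

theorem S_sub (hm : G.Id m) (hΞ : G.Id Ξ) (hx : ∀ j, x j ∈ U hm) (hx' : ∀ j, x' j ∈ U hm)
    (h : ∀ j, In Ξ ((x j).val - (x' j).val)) :
    V.S x - V.S x' - ∑ j, (V.T j).s • lam G (((x j).val - (x' j).val) * V.la x j) ∈ Ξ * Ξ := by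
  let y := Function.update x 0 (x' 0)
  let u := Function.update y 1 (x' 1)
  have e : Function.update u 2 (x' 2) = x' := funext fun j => by fin_cases j <;> rfl
  have k : ∀ v : Fin 3 → (Tw G)ˣ, (∀ i, v i = x i ∨ v i = x' i) → ∀ j,
      (V.T j).s • lam G (((x j).val - (x' j).val) * V.la v j) -
        (V.T j).s • lam G (((x j).val - (x' j).val) * V.la x j) ∈ Ξ * Ξ := fun v hv j => by
    rw [← smul_sub, ← map_sub, ← mul_sub]
    refine Submodule.smul_of_tower_mem _ _ (lam_mem (hΞ.mul hΞ) (o_mul_mem hΞ hΞ (h j)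
      (Ideal.mul_le_right (V.la_sub hm hΞ (fun i => ?_) hx (fun i => ?_) j))))
    · rcases hv i with e | e <;> rw [e]
      exacts [hx i, hx' i]
    · rcases hv i with e | e <;> rw [e]
      exacts [by rw [sub_self]; exact in_zero, In.eq (In.neg (h i)) (by abel)]
  have e0 := V.S_upd x 0 (x' 0)
  have e1 := V.S_upd y 1 (x' 1)
  have e2 := V.S_upd u 2 (x' 2)
  rw [e] at e2
  convert add_mem (k y (fun i => by fin_cases i <;> simp [y]) 1)
    (k u (fun i => by fin_cases i <;> simp [u, y]) 2) using 1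
  rw [Fin.sum_univ_three, ← e0]
  change _ = (V.T 1).s • lam G (((y 1).val - _) * _) - _ + ((V.T 2).s • lam G (((u 2).val - _) * _) - _)
  rw [← e1, ← e2]
  abel

variable [Fact ((p : O) = 0)]

/-- changing the meridians of the `L` slots -/
theorem A_sub (hm : G.Id m) (hN : G.Id N) (hY : G.Id Y) (hΞ : G.Id Ξ) (Nm : N ≤ m)
    (hx : ∀ j, x j ∈ U hN) (hx' : ∀ j, x' j ∈ U hm) (ha : ∀ j, t j = false → a j ∈ U hm)
    (h : ∀ j, In Ξ ((x j).val - (x' j).val)) (hM : ∀ j, t j = true → x j = x' j)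
    (hy : ∀ j, t j = false → In Y ((a j).val - (1 + V.la x j))) :
    V.A x a - V.A x' a ∈ Ξ * (Ξ ⊔ Y ⊔ m * (N * N)) := by
  have hI := hY.sup (hN.mul hN)
  have e1 : ∀ j, (if t j then 0 else (V.T j).CC (a j) (x j)) -
      (if t j then 0 else (V.T j).CC (a j) (x' j)) +
        (V.T j).s • lam G (((x j).val - (x' j).val) * V.la x j) ∈ Ξ * (Ξ ⊔ Y ⊔ m * (N * N)) :=
    fun j => by
    rcases ht : t j with _ | _
    swap
    · simp [hM j ht]
    have h1 := (V.T j).CC_two hm hI hΞ (a := 1) (a' := a j) (one_mem _) (ha j ht) (hx' j) (Nm (hx j))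
      (In.eq (In.add (Ideal.mem_sup_left (hy j ht)) (Ideal.mem_sup_right (V.la_in hN hx j)))
        (by rw [Units.val_one]; abel)) (h j)
    have h2 := Submodule.smul_of_tower_mem _ (V.T j).s (lam_mem (hΞ.mul hY) (o_mul_mem hΞ hY (h j)
      (hy j ht)))
    have l1 : m * (Y ⊔ N * N) * Ξ ≤ Ξ * (Ξ ⊔ Y ⊔ m * (N * N)) := by
      rw [mul_comm, Ideal.mul_sup]
      exact Ideal.mul_mono_right (sup_le_sup_right (le_sup_of_le_right Ideal.mul_le_right) _)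
    convert sub_mem (l1 h1) (Ideal.mul_mono_right (le_sup_of_le_left le_sup_right) h2) using 1
    simp only [To.one_CC, Units.val_one, Bool.false_eq_true, if_false]
    rw [lam_comm (x := (a j).val - 1), show (a j).val - (1 + V.la x j) = (a j).val - 1 - V.la x j by abel,
      mul_sub ((x j).val - (x' j).val) _ (V.la x j), map_sub, smul_sub]
    abel
  have e2 := sum_mem fun j (_ : j ∈ univ) => e1 j
  rw [sum_add_distrib, sum_sub_distrib] at e2
  convert neg_mem (add_mem e2 (Ideal.mul_mono_right (le_sup_of_le_left le_sup_left)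
    (V.S_sub hm hΞ (fun j => Nm (hx j)) hx' h))) using 1
  rw [A, A]; abel

end Vt

end Crest.Agent.N255.Cs

end
end

-- ▼ part N255/Cs/IdM
section

/-!
# Row 255 (helper31): from the ring without the variables `m` to the ring of the vertex
-/

set_option autoImplicit false
set_option linter.unusedSectionVars false
open Finset Sum

noncomputable section

namespace Crest.Agent.N255.Cs

open Tw Tp _root_.N255.Dr _root_.N255.Dr.O _root_.N255.Core
open _root_.N255.Sl (Zn)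
open Tg (Xm GA Ga Wm grO grO_z hom_of_z id_mx)

variable {p : ℕ} [Fact p.Prime] {s : Fin 3 → Type} [∀ i, Fintype (s i)]
  {w : ∀ i, Wall p (Gm p) (g0 p) (s i)} {t : Fin 3 → Bool} {V B U : Type} [Fintype V] [Fintype B]
  [Fintype U] {X : Type} [TopologicalSpace X]

namespace Gv

variable (g : Gv w t V) (dB : B → Gm p)

/-- the graded variables together with the far variables -/
def ext : Gv w t (V ⊕ B) where
  em q := inl (g.em q)
  inj _ h _ h' e := g.inj h h' (inl_injective e)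
  G := grO p (ZMod p) (Sum.elim g.d dB)
  d := Sum.elim g.d dB
  hO := grO_z _
  dy := g.dy
  dm := g.dm

theorem hom_inl : g.G.Hom (g.ext dB).G (rn inl) :=
  hom_of_z g.hO fun v => by rw [rn_z]; exact (g.ext dB).hO (inl v)

theorem hom_pz : (g.ext dB).G.Hom g.G (Tg.pz p V B) :=
  hom_of_z (g.ext dB).hO (by
    rintro (v | b)
    · rw [Tg.pz_inl]; exact g.hO v
    · rw [Tg.pz_inr]; exact g.G.hg_zero _)

theorem inl_a (i : Fin 3) : um (g.hom_inl dB) (g.a i) = (g.ext dB).a i :=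
  uz_mp _ _ _ fun _ _ => rn_z _ _

theorem inl_x (i : Fin 3) : um (g.hom_inl dB) (g.x i) = (g.ext dB).x i :=
  uz_mp _ _ _ fun _ _ => rn_z _ _

theorem pz_a (i : Fin 3) : um (g.hom_pz dB) ((g.ext dB).a i) = g.a i :=
  uz_mp _ _ _ fun _ _ => Tg.pz_inl _

theorem pz_x (i : Fin 3) : um (g.hom_pz dB) ((g.ext dB).x i) = g.x i :=
  uz_mp _ _ _ fun _ _ => Tg.pz_inl _

theorem pz_N {f : O p (ZMod p) (V ⊕ B)} (hf : f ∈ (g.ext dB).N) : Tg.pz p V B f ∈ g.N :=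
  (g.ext dB).N_le (I := g.N.comap (Tg.pz p V B)) (fun q h1 h2 => by
    rw [Ideal.mem_comap, show (g.ext dB).em q = inl (g.em q) from rfl, Tg.pz_inl]
    exact Ideal.subset_span ⟨q, h1, h2, rfl⟩) hf

variable (T : Vt (ZMod p) X t)

theorem A_eq' : T.A g.x g.a = Ga w t (c w T) (fun q => z (g.em q)) + g.Ps T := g.A_eq T

theorem rn_Ga : rn inl (Ga w t (c w T) fun q => (z (g.em q) : O p (ZMod p) V)) =
    Ga w t (c w T) fun q => (z (inl (g.em q)) : O p (ZMod p) (V ⊕ B)) := by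
  simp only [Ga, map_sum, apply_ite (rn inl), map_smul, map_mul, rn_z, map_zero]

theorem A_ext : T.A (g.ext dB).x (g.ext dB).a =
    Ga w t (c w T) (fun q => z (inl (g.em q))) + rn inl (g.Ps T) := by
  rw [← g.rn_Ga T, ← map_add, ← g.A_eq' T, ← T.A_mp (g.hom_inl dB)]
  simp only [inl_a, inl_x]

/-- the ideal of the `y - l` -/
def Yl : Ideal (O p (ZMod p) V) := g.G.sp {f | ∃ j, t j = false ∧ f = o g.G ((g.a j).val - (1 + T.la g.x j))}

/-- the rows `∂ / ∂ m` detect the `y - l` -/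
theorem Yl_le (sur : ∀ i γ, ∃ y, (w i).kd y = none ∧ (w i).deg y = γ) (he : T.e * T.e = 1)
    (hs : (T.T 0).s ≠ 0) {J : Ideal (O p (ZMod p) V)}
    (hJ : ∀ q : Xm w t, pd (g.em q.1.1) (T.A g.x g.a) ∈ J) (h3 : mx * (g.N * g.N) ≤ J) :
    g.Yl T ≤ J := by
  refine Tg.nak Tg.mx_nil (Ideal.span_le.2 ?_)
  rintro _ ⟨γ, _, ⟨j, hj, rfl⟩, rfl⟩
  obtain ⟨y, hy, rfl⟩ := sur j γ
  have hq : Ok w t (⟨j, y⟩, true) := Or.inr ⟨rfl, hj, hy⟩
  have hY := ((g.G.id_sp _).sup (g.id_N.mul g.id_N) : g.G.Id (g.Yl T ⊔ g.N * g.N)).inf g.id_N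
  have h1 := T.der_A_m (dg_pd g.hO (g.em (⟨j, y⟩, true))) j hj (c := 1)
    (fun i hi => g.pd_x hq i (Or.inl hi.symm)) (fun i _ => g.pd_a hq i (Or.inr (Or.inl rfl)))
    (by simpa [hj] using g.pd_x_one hy) g.id_N hY inf_le_right
    ⟨In.eq (In.add (Ideal.mem_sup_left (Gr.mem_sp ⟨j, hj, rfl⟩))
      (Ideal.mem_sup_right (T.la_in g.id_N g.x_N j))) (by abel), g.a_N j⟩ (g.x_N j)
  have l1 : g.N * ((g.Yl T ⊔ g.N * g.N) ⊓ g.N) ≤ J ⊔ mx * g.Yl T := by
    refine (Ideal.mul_mono g.N_mx inf_le_left).trans ?_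
    rw [Ideal.mul_sup, sup_comm]
    exact sup_le_sup_right h3 _
  have h2 := sub_mem (Ideal.mem_sup_left (hJ ⟨⟨(⟨j, y⟩, true), hj, hy⟩, rfl⟩)) (l1 h1)
  rw [sub_sub_cancel, g.dm j y hj hy, sub_sub_cancel, one_smul, smul_comm, ← smul_assoc,
    sg_symm (by simp [g0])] at h2
  simpa only [SetLike.mem_coe, smul_smul, inv_mul_cancel₀ (c_ne (w := w) T he hs j y), one_smul] using
    Submodule.smul_of_tower_mem _ (c w T j y)⁻¹ (show c w T j y • _ ∈ _ from h2)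

end Gv

/-- graded variables without `m`; `b j` is the second boundary datum of the slot `j` -/
structure Gu (p : ℕ) [Fact p.Prime] (s : Fin 3 → Type) (t : Fin 3 → Bool) (U : Type) [Fintype U] where
  ys : ∀ i, Finset (s i)
  cu : ∀ i, s i → U
  G : Gr (Gm p) (ZMod p) (O p (ZMod p) U)
  d : U → Gm p
  hO : ∀ v, G.Hg (d v) (z v)
  b : Fin 3 → (Tw G)ˣ
  hb : ∀ j, b j ∈ Tw.U (id_mx hO)

namespace Gu

variable (u : Gu p s t U) (T : Vt (ZMod p) X t)

/-- the first boundary datum `1 + y` -/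
def a (i : Fin 3) : (Tw u.G)ˣ := uz u.hO (u.ys i) (u.cu i)

/-- the meridian -/
def x (i : Fin 3) : (Tw u.G)ˣ := if t i then u.a i else u.b i

/-- the ideal of the meridians -/
def N : Ideal (O p (ZMod p) U) := u.G.sp {f | ∃ j, f = o u.G ((u.x j).val - 1)}

/-- the ideal of the end -/
def XI : Ideal (O p (ZMod p) U) :=
  u.G.sp {f | ∃ j, t j = false ∧ f = o u.G ((u.a j).val - (1 + T.la u.x j))} ⊔ u.N * u.N * u.N

theorem id_N : u.G.Id u.N := u.G.id_sp _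

theorem id_XI : u.G.Id (u.XI T) := (u.G.id_sp _).sup ((u.id_N.mul u.id_N).mul u.id_N)

theorem a_mx (i : Fin 3) : u.a i ∈ Tw.U (id_mx u.hO) := uz_mem _ _ fun _ _ => z_mem _

theorem x_mx (i : Fin 3) : u.x i ∈ Tw.U (id_mx u.hO) := by
  unfold x; split_ifs; exacts [u.a_mx i, u.hb i]

theorem x_N (i : Fin 3) : u.x i ∈ Tw.U u.id_N := Gr.mem_sp ⟨i, rfl⟩

theorem N_mx : u.N ≤ mx := (id_mx u.hO).sp_le.2 (by rintro _ ⟨j, rfl⟩; exact u.x_mx j)

theorem x_M {i : Fin 3} (h : t i = true) : u.x i = u.a i := if_pos h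

theorem x_L {i : Fin 3} (h : t i = false) : u.x i = u.b i := if_neg (by simp [h])

theorem a_XI {j : Fin 3} (h : t j = false) : In (u.XI T) ((u.a j).val - (1 + T.la u.x j)) :=
  Ideal.mem_sup_left (Gr.mem_sp ⟨j, h, rfl⟩)

theorem XI_mx : u.XI T ≤ mx := sup_le ((id_mx u.hO).sp_le.2 (by
  rintro _ ⟨j, -, rfl⟩
  exact In.eq (In.sub (u.a_mx j) ((Ideal.mul_le_left.trans u.N_mx) (T.la_in u.id_N u.x_N j)))
    (by abel))) (Ideal.mul_le_right.trans u.N_mx)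

end Gu

variable (B) in
/-- the passage to the variables of the vertex -/
structure Pg (u : Gu p s t U) (g : Gv w t V) where
  hys : ∀ i, u.ys i = ys (w i)
  dB : B → Gm p
  inc : U → V ⊕ B
  inj : Function.Injective inc
  hd : ∀ v, Sum.elim g.d dB (inc v) = u.d v
  nm : ∀ q : Xm w t, inl (g.em q.1.1) ∉ Set.range inc
  hy : ∀ i y, (w i).kd y = none → inc (u.cu i y) = inl (g.em (⟨i, y⟩, false))
  sur : ∀ i γ, ∃ y, (w i).kd y = none ∧ (w i).deg y = γ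

variable (w t) in
/-- the variables `y` and `m` -/
def Qn : Type := {q // Ok w t q ∧ (w q.1.1).kd q.1.2 = none}

instance : Fintype (Qn w t) := @Fintype.ofFinite _ Subtype.finite

instance : Fintype (Xm w t) := Fintype.ofFinite _

variable (w t V B) in
/-- the new generators -/
abbrev Ad : Type := Xm w t ⊕ (V ⊕ B) × Qn w t × Qn w t

namespace Pg

variable {u : Gu p s t U} {g : Gv w t V} (P : Pg B u g) (T : Vt (ZMod p) X t)

/-- the change of rings -/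
abbrev ka : O p (ZMod p) U →ₐ[ZMod p] O p (ZMod p) (V ⊕ B) := rn P.inc

/-- the variables at the vertex -/
abbrev S : Gv w t (V ⊕ B) := g.ext P.dB

theorem hom : u.G.Hom P.S.G P.ka :=
  hom_of_z u.hO fun v => by rw [rn_z, ← P.hd]; exact P.S.hO _

theorem um_a (i : Fin 3) : um P.hom (u.a i) = P.S.a i := by
  rw [Gu.a, P.hys]
  exact uz_mp _ _ _ fun y hy => by rw [rn_z, P.hy i y (mem_ys.1 hy)]; rfl

/-- the generators `m - w` -/
def xi (q : Xm w t) : O p (ZMod p) (V ⊕ B) :=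
  P.S.G.pr (g0 p - (w q.1.1.1.1).deg q.1.1.1.2)
    (o _ ((P.S.x q.1.1.1.1).val - (um P.hom (u.x q.1.1.1.1)).val))

/-- the new generators -/
def gen : Ad w t V B → O p (ZMod p) (V ⊕ B) :=
  Sum.elim P.xi fun q => z q.1 * (z (P.S.em q.2.1.1) * z (P.S.em q.2.2.1))

/-- the located data at the vertex -/
def zn {κ α ι : Type*} (Z : Zn (O p (ZMod p) U) κ α ι) :
    Zn (O p (ZMod p) (V ⊕ B)) κ (α ⊕ Ad w t V B) ι := (Z.map P.ka.toRingHom).ad P.gen

/-- the ideal of the `m - w` -/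
def Xi : Ideal (O p (ZMod p) (V ⊕ B)) := Ideal.span (Set.range P.xi)

theorem id_Xi : P.S.G.Id P.Xi := P.S.G.id_span_hg (by rintro _ ⟨q, rfl⟩; exact ⟨_, Gr.hg_pr _ _ _⟩)

theorem x_M {j : Fin 3} (h : t j = true) : P.S.x j = um P.hom (u.x j) := by
  rw [u.x_M h, um_a, P.S.a_eq j h]

theorem x_Xi (j : Fin 3) : In P.Xi ((P.S.x j).val - (um P.hom (u.x j)).val) := by
  rcases ht : t j with _ | _
  · refine Gr.mem_of_pr (G := P.S.G) fun γ => ?_
    obtain ⟨y, hy, e⟩ := P.sur j (g0 p - γ)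
    refine Ideal.subset_span ⟨⟨⟨(⟨j, y⟩, true), ht, hy⟩, rfl⟩, ?_⟩
    simp only [xi, e, sub_sub_cancel]
  · rw [P.x_M ht, sub_self]; exact in_zero

theorem x_mx (j : Fin 3) : um P.hom (u.x j) ∈ Tw.U (id_mx P.S.hO) :=
  um_mem _ _ _ (fun _ => Tg.rn_mem _) (u.x_mx j)

theorem Xi_mx : P.Xi ≤ mx := Ideal.span_le.2 (by
  rintro _ ⟨q, rfl⟩
  exact id_mx P.S.hO _ _ (U_sub _ (P.S.N_mx (P.S.x_N _)) (P.x_mx _)))

theorem N_le : u.N.map P.ka ≤ P.S.N ⊔ P.Xi :=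
  Ideal.map_le_iff_le_comap.2 ((P.hom.comap (P.S.id_N.sup P.id_Xi)).sp_le.2 (by
    rintro _ ⟨j, rfl⟩
    rw [Ideal.mem_comap, ← o_map P.hom, map_sub, map_one, ← val_um]
    exact In.eq (In.sub (Ideal.mem_sup_left (P.S.x_N j)) (Ideal.mem_sup_right (P.x_Xi j))) (by abel)))

theorem N3_le : (u.N * u.N * u.N).map P.ka ≤ P.S.N * P.S.N * P.S.N ⊔
    P.Xi * (P.Xi ⊔ P.S.N * P.S.N) := by
  rw [Ideal.map_mul, Ideal.map_mul]
  refine (Ideal.mul_mono (Ideal.mul_mono P.N_le P.N_le) P.N_le).trans ?_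
  have h1 : ∀ J, P.Xi * P.Xi * J ≤ P.S.N * P.S.N * P.S.N ⊔ P.Xi * (P.Xi ⊔ P.S.N * P.S.N) := fun J =>
    le_sup_of_le_right (Ideal.mul_le_left.trans (Ideal.mul_mono_right le_sup_left))
  have h2 : P.Xi * (P.S.N * P.S.N) ≤ P.S.N * P.S.N * P.S.N ⊔ P.Xi * (P.Xi ⊔ P.S.N * P.S.N) :=
    le_sup_of_le_right (Ideal.mul_mono_right le_sup_right)
  have h0 : P.S.N * P.S.N * P.S.N ≤ P.S.N * P.S.N * P.S.N ⊔ P.Xi * (P.Xi ⊔ P.S.N * P.S.N) := le_sup_left
  generalize P.S.N * P.S.N * P.S.N ⊔ P.Xi * (P.Xi ⊔ P.S.N * P.S.N) = R at *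
  simp only [Ideal.sup_mul, Ideal.mul_sup, sup_le_iff]
  refine ⟨⟨⟨h0, ?_⟩, ?_, ?_⟩, ⟨?_, ?_⟩, ?_, h1 _⟩
  all_goals first | exact le_of_eq_of_le (by ring1) h2 | exact le_of_eq_of_le (by ring1) (h1 P.S.N)

/-- the `y - l` computed with the meridians `w` -/
theorem a_XI {j : Fin 3} (h : t j = false) :
    In ((u.XI T).map P.ka) ((P.S.a j).val - (1 + T.la (fun i => um P.hom (u.x i)) j)) := by
  have := Ideal.mem_map_of_mem P.ka (u.a_XI T h)
  rwa [← o_map P.hom, map_sub, map_add, map_one, ← val_um, um_a, ← T.la_mp] at this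

theorem la_sub (j : Fin 3) : In (mx * P.Xi) (T.la P.S.x j - T.la (fun i => um P.hom (u.x i)) j) :=
  T.la_sub (id_mx P.S.hO) P.id_Xi (fun j => P.S.N_mx (P.S.x_N j)) P.x_mx P.x_Xi j

theorem mNN_le : mx * (P.S.N * P.S.N) ≤ Ideal.span (Set.range P.gen) := by
  rw [Gv.N, mx, Ideal.span_mul_span', Ideal.span_mul_span']
  refine Ideal.span_mono ?_
  rintro _ ⟨_, ⟨v, rfl⟩, _, ⟨_, ⟨q, h1, h2, rfl⟩, _, ⟨q', h1', h2', rfl⟩, rfl⟩, rfl⟩
  exact ⟨inr (v, ⟨q, h1, h2⟩, ⟨q', h1', h2'⟩), rfl⟩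

theorem Xi_le : P.Xi ≤ Ideal.span (Set.range P.gen) :=
  Ideal.span_mono (by rintro _ ⟨q, rfl⟩; exact ⟨inl q, rfl⟩)

variable {κ α ι : Type*} {Z : Zn (O p (ZMod p) U) κ α ι}

theorem ok (h : Z.Ok) : (P.zn Z).Ok := (h.map _).ad _

theorem GA_eq (jo : ∀ i, O p (ZMod p) (s i) →ₐ[ZMod p] O p (ZMod p) U) (Ps : O p (ZMod p) V) :
    GA w t (fun i => P.ka.comp (jo i)) Ps =
      P.ka (∑ i, if t i = true then jo i (w i).W else -jo i (w i).W) + rn inl Ps := by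
  simp only [GA, map_sum, apply_ite P.ka, map_neg, AlgHom.comp_apply]

/-- the potential at the vertex -/
abbrev Phi (jo : ∀ i, O p (ZMod p) (s i) →ₐ[ZMod p] O p (ZMod p) U) : O p (ZMod p) (V ⊕ B) :=
  Ga w t (Gv.c w T) (fun q => z (inl (g.em q))) + GA w t (fun i => P.ka.comp (jo i)) (g.Ps T)

/-- **the identity at the vertex** -/
theorem ident [Fintype α] (h : Z.Ok) (hX : u.XI T ≤ Z.Loc)
    {jo : ∀ i, O p (ZMod p) (s i) →ₐ[ZMod p] O p (ZMod p) U} {H : Ideal (O p (ZMod p) U)}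
    {HS : Ideal (O p (ZMod p) (V ⊕ B))} (hH : H.map P.ka ≤ HS) (h3 : mx * (P.S.N * P.S.N * P.S.N) ≤ HS)
    (e : ∑ i, (if t i = true then jo i (w i).W else -jo i (w i).W) + T.A u.x u.a -
      ∑ a, Z.ε a * Z.E a ∈ Z.Rs ⊔ (mx * (u.N * u.N * u.N) ⊔ H)) :
    P.Phi T jo - ∑ a, (P.zn Z).ε a * (P.zn Z).E a ∈ (P.zn Z).Rs ⊔ HS := by
  have l0 := (h.map P.ka.toRingHom).ad_le P.gen
  have l1 : P.Xi ≤ (P.zn Z).Loc := P.Xi_le.trans l0
  have l2 : mx * (P.S.N * P.S.N) ≤ (P.zn Z).Loc := P.mNN_le.trans l0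
  have l3 : (u.XI T).map P.ka ≤ (P.zn Z).Loc :=
    (Ideal.map_mono hX).trans ((Zn.map_Loc (Z := Z) _).ge.trans (Zn.Loc_ad _))
  have hm := id_mx P.S.hO
  have e1 := T.A_sub hm P.S.id_N ((P.hom.map (u.id_XI T)).sup (hm.mul P.id_Xi)) P.id_Xi P.S.N_mx
    P.S.x_N P.x_mx (fun j _ => P.S.N_mx (P.S.a_N j)) P.x_Xi (fun _ => P.x_M) fun j hj =>
      In.eq (In.sub (Ideal.mem_sup_left (P.a_XI T hj)) (Ideal.mem_sup_right (P.la_sub T j))) (by abel)
  have e2 := Ideal.mem_map_of_mem P.ka e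
  have l4 : ((Z.Rs ⊔ (mx * (u.N * u.N * u.N) ⊔ H)).map P.ka) ≤ (P.zn Z).Rs ⊔ HS := by
    rw [Ideal.map_sup, Ideal.map_sup, Ideal.map_mul]
    refine sup_le (le_sup_of_le_left ((Zn.map_Rs (Z := Z) _).ge.trans (Zn.Rs_ad _)))
      (sup_le ((Ideal.mul_mono (Ideal.map_le_iff_le_comap.2 fun _ h => Tg.rn_mem _ h :
        _ ≤ mx) P.N3_le).trans ?_)
        (le_sup_of_le_right hH))
    rw [Ideal.mul_sup, mul_left_comm mx P.Xi, Ideal.mul_sup mx]
    exact sup_le (le_sup_of_le_right h3) (le_sup_of_le_left ((Ideal.mul_mono l1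
      (sup_le (Ideal.mul_le_right.trans l1) l2)).trans Zn.Loc_sq))
  convert add_mem (l4 e2) (Ideal.mem_sup_left (((Ideal.mul_mono l1 (sup_le (sup_le l1 (sup_le l3
    (Ideal.mul_le_right.trans l1))) l2)).trans Zn.Loc_sq) e1)) using 1
  rw [Phi, GA_eq, map_sub, map_add, ← T.A_mp P.hom, Gv.A_ext, zn, Zn.sum_ad, map_sum _ _ (univ : Finset α)]
  simp only [um_a, map_mul]
  change _ - ∑ a, P.ka (Z.ε a) * P.ka (Z.E a) = _
  abel

theorem pd_m (q : Xm w t) (f : O p (ZMod p) U) : pd (inl (g.em q.1.1)) (P.ka f) = 0 :=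
  Tg.pd_rn_not (P.nm q) f



theorem pz_pd_m (jo : ∀ i, O p (ZMod p) (s i) →ₐ[ZMod p] O p (ZMod p) U) (q : Xm w t) :
    Tg.pz p V B (pd (inl (g.em q.1.1)) (P.Phi T jo)) = pd (g.em q.1.1) (T.A g.x g.a) := by
  rw [Phi, GA_eq, add_left_comm, map_add, pd_m, zero_add, ← g.rn_Ga T, ← map_add, ← g.A_eq' T, ← Tg.pd_pz,
    Tg.map_rn_inl Tg.pz_inl]


theorem pz_mXi (hμ : 0 < Z.μ) (a : α ⊕ Ad w t V B) {f : O p (ZMod p) (V ⊕ B)} (hf : f ∈ mx * P.Xi) :
    Tg.pz p V B f ∈ (P.zn Z).At0 (Tg.pz p V B) (Wm p (ZMod p) V Z.μ) a := by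
  have : (mx * P.Xi).map (Tg.pz p V B) ≤ (P.zn Z).At0 (Tg.pz p V B) (Wm p (ZMod p) V Z.μ) a := by
    rw [Ideal.map_mul, Xi, Ideal.map_span, ← Set.range_comp, _root_.N255.Sl.span_range_eq,
      Ideal.mul_iSup]
    refine iSup_le fun q => le_iSup_of_le (inr (inl q)) (Ideal.mul_mono_left ?_)
    refine (Ideal.map_le_iff_le_comap.2 fun _ => map_mx _ Tg.pz_mx).trans
      ((Tg.mx_le_Wm Z.μ).trans ((Tg.fl_Wm _).anti ?_))
    change 0 - _ + 1 ≤ _
    omega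
  exact this (Ideal.mem_map_of_mem _ hf)

/-- the rows of the end ideal -/
theorem row (he : T.e * T.e = 1) (hs : (T.T 0).s ≠ 0) (hμ : 0 < Z.μ)
    (jo : ∀ i, O p (ZMod p) (s i) →ₐ[ZMod p] O p (ZMod p) U) {K : Ideal (O p (ZMod p) V)}
    (hK : mx * (g.N * g.N) ≤ K) (a : α ⊕ Ad w t V B) {f : O p (ZMod p) U} (hf : f ∈ u.XI T) :
    Tg.pz p V B (P.ka f) ∈ (Tg.sp fun q : _root_.N255.Core.Xi w t => Tg.pz p V B (pd (inl (g.em q.1))
      (P.Phi T jo))) ⊔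
        K ⊔ (P.zn Z).At0 (Tg.pz p V B) (Wm p (ZMod p) V Z.μ) a := by
  set J := _ ⊔ K ⊔ (P.zn Z).At0 (Tg.pz p V B) (Wm p (ZMod p) V Z.μ) a
  have k1 : K ≤ J := le_sup_of_le_left le_sup_right
  have k2 : ∀ f ∈ mx * P.Xi, Tg.pz p V B f ∈ J := fun f hf => Ideal.mem_sup_right (P.pz_mXi hμ a hf)
  have k3 : g.Yl T ≤ J := g.Yl_le T P.sur he hs (fun q => by
    rw [← P.pz_pd_m T jo q]
    exact Ideal.mem_sup_left (Ideal.mem_sup_left (Tg.mem_sp _ q.1))) (hK.trans k1)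
  have hm := id_mx P.S.hO
  have hY := (P.S.G.id_sp {f | ∃ j, t j = false ∧ f = o _ ((P.S.a j).val - (1 + T.la P.S.x j))}).sup
    (hm.mul P.id_Xi)
  have k4 : u.XI T ≤ (_ ⊔ mx * (P.S.N * P.S.N)).comap P.ka := sup_le
    ((P.hom.comap (hY.sup (hm.mul (P.S.id_N.mul P.S.id_N)))).sp_le.2 (by
      rintro _ ⟨j, hj, rfl⟩
      rw [Ideal.mem_comap, ← o_map P.hom, map_sub, map_add, map_one, ← val_um, um_a, ← T.la_mp]
      exact Ideal.mem_sup_left (In.eq (In.add (Ideal.mem_sup_left (Gr.mem_sp ⟨j, hj, rfl⟩))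
        (Ideal.mem_sup_right (P.la_sub T j))) (by abel))))
    (Ideal.map_le_iff_le_comap.1 (P.N3_le.trans (sup_le
      (le_sup_of_le_right (by rw [mul_assoc]; exact Ideal.mul_mono_left P.S.N_mx))
      (le_sup_of_le_left (le_sup_of_le_right (by
        rw [mul_comm]
        exact Ideal.mul_mono_left (sup_le P.Xi_mx (Ideal.mul_le_left.trans P.S.N_mx))))))))
  refine (sup_le (sup_le (Ideal.span_le.2 ?_) k2) ?_ : _ ≤ J.comap (Tg.pz p V B)) (k4 hf)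
  · rintro _ ⟨γ, _, ⟨j, hj, rfl⟩, rfl⟩
    rw [SetLike.mem_coe, Ideal.mem_comap, g.hom_pz P.dB, ← o_map (g.hom_pz P.dB), map_sub, map_add,
      map_one, ← val_um, g.pz_a, ← T.la_mp]
    simp only [g.pz_x]
    exact k3 (Ideal.subset_span ⟨γ, _, ⟨j, hj, rfl⟩, rfl⟩)
  · rw [← Ideal.map_le_iff_le_comap, Ideal.map_mul, Ideal.map_mul]
    have : P.S.N.map (Tg.pz p V B) ≤ g.N := Ideal.map_le_iff_le_comap.2 fun f hf => g.pz_N P.dB hf
    exact (Ideal.mul_mono (Ideal.map_le_iff_le_comap.2 fun _ => map_mx _ Tg.pz_mx)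
      (Ideal.mul_mono this this)).trans (hK.trans k1)






end Pg

end Crest.Agent.N255.Cs

end
end

-- ▼ part N255/Ma/Vb
section

/-!
# Row 255 (helper39): the vertex algebra with the boundary action of `Vt`
-/

set_option autoImplicit false
open Set Function Sum

noncomputable section

namespace Crest.Agent.N255.Ma

open _root_.N255.Dr _root_.N255.Dr.O Tg _root_.N255.Wt Cs Cs.Tw
open _root_.N255.Core (Wall Ok Xi Hi lin vw yi VxH)
open _root_.N255.Sl (Zn Wf W0w)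

variable {p : ℕ} [Fact p.Prime] {s : Fin 3 → Type} [∀ i, Fintype (s i)]
  {w : ∀ i, Wall p (Gm p) (g0 p) (s i)} {t : Fin 3 → Bool} {X : Type} [TopologicalSpace X]

/-- the graded standard variables -/
def gvV (x0 : V w t) : Gv w t (V w t) where
  em := (vsV x0).em
  inj := (vsV x0).inj
  G := grO p (ZMod p) fun v => if v.1.2 = true then g0 p - (w _).deg v.1.1.2 else (w _).deg v.1.1.2
  d v := if v.1.2 = true then g0 p - (w _).deg v.1.1.2 else (w _).deg v.1.1.2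
  hO := grO_z _
  dy i x h := by rw [vsV_em x0 (Cs.ok_y h)]; rfl
  dm i x h h' := by rw [vsV_em x0 (Or.inr ⟨rfl, h, h'⟩)]; rfl

/-- `u` is the standard graded structure on the wall variables; `wv i y` is the holonomy variable
dual to `y` -/
structure Gs (w : ∀ i, Wall p (Gm p) (g0 p) (s i)) (u : Gu p s t (Σ i, s i)) where
  hys : ∀ i, u.ys i = ys (w i)
  cu : ∀ i y, (w i).kd y = none → u.cu i y = ⟨i, y⟩
  hd : ∀ q, u.d q = (w q.1).deg q.2
  sur : ∀ i γ, ∃ y, (w i).kd y = none ∧ (w i).deg y = γ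
  wv : ∀ i, s i → s i
  nr : ∀ i y, t i = false → (w i).kd (wv i y) ≠ some true
  hb : ∀ i y, t i = false → (w i).kd y = none →
    u.G.pr (g0 p - (w i).deg y) (o u.G ((u.b i).val - 1)) = z ⟨i, wv i y⟩

namespace Gs

variable {u : Gu p s t (Σ i, s i)} (r : Gs w u) (x0 : V w t)

/-- the passage -/
def pg : Pg (B w t) u (gvV x0) where
  hys := r.hys
  dB b := (w _).deg b.1.2
  inc := cq w t
  inj := cq_inj
  hd q := by
    rw [r.hd]
    by_cases h : (w q.1).kd q.2 = some (!t q.1)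
    · rw [cq_far h]; rfl
    · rw [cq_near' h]; rfl
  nm := cq_m x0
  hy i y h := by rw [r.cu i y h]; exact cq_y x0 h
  sur := r.sur

/-- the holonomy variable of a variable `m` -/
def wV (q : Xm w t) : V w t := (vsV x0).em (⟨_, r.wv _ q.1.1.1.2⟩, false)

theorem xi_eq (q : Xm w t) : (r.pg x0).xi q = -rn inl (xm x0 (r.wV x0) q) := by
  obtain ⟨⟨⟨⟨j, y⟩, b⟩, hj, hy⟩, hb⟩ := q
  obtain rfl : b = true := hb
  have h1 := pr_uz (r.pg x0).S.hO (s := ys (w j)) (v := fun x => (r.pg x0).S.em (⟨j, x⟩, true))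
    (fun x hx x' hx' e => by
      simp only [(r.pg x0).S.dm j _ hj (mem_ys.1 hx), (r.pg x0).S.dm j _ hj (mem_ys.1 hx'),
        sub_right_inj] at e
      exact (w j).inj _ _ (mem_ys.1 hx) (mem_ys.1 hx') e) (mem_ys.2 hy)
  rw [(r.pg x0).S.dm j _ hj hy] at h1
  have h2 := congrArg (kap w t) (r.hb j y hj hy)
  rw [show kap w t (u.G.pr _ _) = _ from (r.pg x0).hom _ _, kap_z_near x0 (by
    simp only at hj; rw [hj]; exact r.nr j y hj)] at h2
  simp only at hj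
  have e : (r.pg x0).S.x j = uz (r.pg x0).S.hO (ys (w j)) fun x => (r.pg x0).S.em (⟨j, x⟩, true) := by
    simp only [Gv.x, hj, Bool.not_false]
  rw [Pg.xi, xm, map_sub (rn inl), rn_z, rn_z, neg_sub, wV, ← h2, u.x_L hj, e,
    ← sub_sub_sub_cancel_right _ _ (1 : Tw _), map_sub, map_sub, h1, val_um,
    ← map_one (Tw.map (r.pg x0).hom), ← map_sub]
  rfl

theorem Xi_eq : (r.pg x0).Xi = (sp (xm x0 (r.wV x0))).map (rn inl : _ →ₐ[ZMod p] A3 w t) := by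
  refine le_antisymm (Ideal.span_le.2 ?_) (Ideal.map_le_iff_le_comap.2 (sp_le.2 fun q => ?_))
  · rintro _ ⟨q, rfl⟩
    exact r.xi_eq x0 q ▸ neg_mem (Ideal.mem_map_of_mem _ (mem_sp _ q))
  · exact Ideal.mem_comap.2 (neg_mem_iff.1 (r.xi_eq x0 q ▸ Ideal.subset_span ⟨q, rfl⟩))

theorem N_le : (r.pg x0).S.N ≤ (NN x0).map (rn inl : _ →ₐ[ZMod p] A3 w t) :=
  Gv.N_le _ fun q h1 h2 => by
    have := Ideal.mem_map_of_mem (rn inl : _ →ₐ[ZMod p] A3 w t)
      (Ideal.subset_span ⟨q, h1, h2, rfl⟩ : z ((vsV x0).em q) ∈ NN x0)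
    rwa [rn_z] at this

variable {κ α : Type} (Z : Zn (A2 p s) κ α (Fin 3))

theorem Xi_le : (r.pg x0).Xi ≤ XX x0 (r.wV x0) Z :=
  r.Xi_eq x0 ▸ le_sup_of_le_right (Ideal.map_mono le_sup_left)

theorem NN_le : (r.pg x0).S.N * (r.pg x0).S.N ≤ XX x0 (r.wV x0) Z :=
  le_sup_of_le_right (((Ideal.mul_mono (r.N_le x0) (r.N_le x0)).trans (Ideal.map_mul _ _ _).ge).trans
    (Ideal.map_mono le_sup_right))

theorem hH {c n : ℕ} (T : Ty w c n) :
    (mx * (u.N * u.N * u.N) ⊔ H2 w t c (La p c n)).map (kap w t) ≤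
      XX x0 (r.wV x0) Z * XX x0 (r.wV x0) Z ⊔ (vsV x0).HS c (La p c n) := by
  rw [Ideal.map_sup, Ideal.map_mul]
  refine sup_le ((Ideal.mul_mono (Ideal.map_le_iff_le_comap.2 fun _ h => rn_mem _ h : _ ≤ mx)
    (r.pg x0).N3_le).trans ?_) (le_sup_of_le_right (Ideal.map_le_iff_le_comap.2 fun f => kap_H x0))
  rw [Ideal.mul_sup, sup_comm]
  refine sup_le_sup (Ideal.mul_le_right.trans (Ideal.mul_mono (r.Xi_le x0 Z)
    (sup_le (r.Xi_le x0 Z) (r.NN_le x0 Z)))) (le_trans (by rw [pow_succ, sq]) (mx_cube_le_HH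
      (fun v => le_trans T.N0_pos ((vsV x0).le_mA T v)) (r.pg x0).S.N_mx ((r.N_le x0).trans
        (Ideal.map_le_iff_le_comap.2 fun f hf => rn_Ge (j := inl) (fun _ => le_rfl) (NN_Ge x0 c _ hf)))))

variable (Tv : Vt (ZMod p) X t)

theorem hA (hX : u.XI Tv ≤ Z.Pu) :
    rn inl (Ga w t (Gv.c w Tv) (fun q => z ((vsV x0).em q)) + (gvV x0).Ps Tv) -
      kap w t (Tv.A u.x u.a) ∈ XX x0 (r.wV x0) Z * XX x0 (r.wV x0) Z := by
  set P := r.pg x0
  have hm := id_mx P.S.hO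
  have e1 := Tv.A_sub hm P.S.id_N ((P.hom.map (u.id_XI Tv)).sup (hm.mul P.id_Xi)) P.id_Xi P.S.N_mx
    P.S.x_N P.x_mx (fun j _ => P.S.N_mx (P.S.a_N j)) P.x_Xi (fun _ => P.x_M) fun j hj =>
      In.eq (In.sub (Ideal.mem_sup_left (P.a_XI Tv hj)) (Ideal.mem_sup_right (P.la_sub Tv j))) (by abel)
  convert Ideal.mul_mono (r.Xi_le x0 Z) (sup_le (sup_le (r.Xi_le x0 Z) (sup_le
    (le_sup_of_le_left (Ideal.map_mono hX)) (Ideal.mul_le_right.trans (r.Xi_le x0 Z))))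
    (Ideal.mul_le_right.trans (r.NN_le x0 Z))) e1 using 1
  rw [Gv.A_ext, map_add, ← (gvV x0).rn_Ga Tv, show kap w t (Tv.A u.x u.a) = _ from (Tv.A_mp P.hom _ _).symm]
  simp only [P.um_a]
  rfl

theorem row (he : Tv.e * Tv.e = 1) (hs : (Tv.T 0).s ≠ 0) (c La : ℕ) {f : A2 p s} (hf : f ∈ u.XI Tv) :
    Tg.pz p _ _ (kap w t f) ∈ (sp fun q : Xm w t => pd ((vsV x0).em q.1.1)
      (Ga w t (Gv.c w Tv) (fun q => z ((vsV x0).em q)) + (gvV x0).Ps Tv)) ⊔
      (vsV x0).K c La ⊔ mx * sp (xm x0 (r.wV x0)) := by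
  set J := _ ⊔ (vsV x0).K c La ⊔ mx * sp (xm x0 (r.wV x0))
  let P := r.pg x0
  let g := gvV x0
  have k1 : mx * (g.N * g.N) ≤ J := le_sup_of_le_left (le_sup_of_le_right
    (Ideal.mul_le_right.trans (mx_sq_le_KK (NN_mx x0) (NN_Ge x0 c La))))
  have k2 : mx * P.Xi ≤ J.comap (Tg.pz p _ _) := by
    rw [← Ideal.map_le_iff_le_comap, Ideal.map_mul, r.Xi_eq x0]
    refine le_sup_of_le_right (Ideal.mul_mono (Ideal.map_le_iff_le_comap.2 fun _ => map_mx _ pz_mx)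
      (Ideal.map_le_iff_le_comap.2 (Ideal.map_le_iff_le_comap.2 fun f hf => ?_)))
    rwa [Ideal.mem_comap, Ideal.mem_comap, map_rn_inl pz_inl]
  have k3 : g.Yl Tv ≤ J := g.Yl_le Tv P.sur he hs (fun q => by
    rw [g.A_eq' Tv]
    exact Ideal.mem_sup_left (Ideal.mem_sup_left (mem_sp _ q))) k1
  have hm := id_mx P.S.hO
  have hY := (P.S.G.id_sp {f | ∃ j, t j = false ∧ f = o _ ((P.S.a j).val - (1 + Tv.la P.S.x j))}).sup
    (hm.mul P.id_Xi)
  have k4 : u.XI Tv ≤ (_ ⊔ mx * (P.S.N * P.S.N)).comap P.ka := sup_le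
    ((P.hom.comap (hY.sup (hm.mul (P.S.id_N.mul P.S.id_N)))).sp_le.2 (by
      rintro _ ⟨j, hj, rfl⟩
      rw [Ideal.mem_comap, ← o_map P.hom, map_sub, map_add, map_one, ← val_um, P.um_a, ← Tv.la_mp]
      exact Ideal.mem_sup_left (In.eq (In.add (Ideal.mem_sup_left (Gr.mem_sp ⟨j, hj, rfl⟩))
        (Ideal.mem_sup_right (P.la_sub Tv j))) (by abel))))
    (Ideal.map_le_iff_le_comap.1 (P.N3_le.trans (sup_le
      (le_sup_of_le_right (by rw [mul_assoc]; exact Ideal.mul_mono_left P.S.N_mx))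
      (le_sup_of_le_left (le_sup_of_le_right (by
        rw [mul_comm]
        exact Ideal.mul_mono_left (sup_le P.Xi_mx (Ideal.mul_le_left.trans P.S.N_mx))))))))
  refine (sup_le (sup_le (Ideal.span_le.2 ?_) k2) ?_ : _ ≤ J.comap (Tg.pz p _ _)) (k4 hf)
  · rintro _ ⟨γ, _, ⟨j, hj, rfl⟩, rfl⟩
    rw [SetLike.mem_coe, Ideal.mem_comap, g.hom_pz P.dB, ← o_map (g.hom_pz P.dB), map_sub, map_add,
      map_one, ← val_um, g.pz_a, ← Tv.la_mp]
    rw [show (fun i => um (g.hom_pz P.dB) (P.S.x i)) = g.x from funext (g.pz_x P.dB)]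
    exact k3 (Ideal.subset_span ⟨γ, _, ⟨j, hj, rfl⟩, rfl⟩)
  · rw [← Ideal.map_le_iff_le_comap, Ideal.map_mul, Ideal.map_mul]
    have : P.S.N.map (Tg.pz p _ _) ≤ g.N := Ideal.map_le_iff_le_comap.2 fun f hf => g.pz_N P.dB hf
    exact (Ideal.mul_mono (Ideal.map_le_iff_le_comap.2 fun _ => map_mx _ pz_mx)
      (Ideal.mul_mono this this)).trans k1

end Gs

/-- **The algebraic data at a vertex, with the action of `Tv`.**  Everything lives over `A2`. -/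
structure VB {c n : ℕ} (T : Ty w c n) (u : Gu p s t (Σ i, s i)) (Tv : Vt (ZMod p) X t) (κ α : Type)
    [Fintype α] where
  f : ∀ i, Wf (w i) (N0 c)
  W0 : ∀ i, W0w (w i)
  hN : ∀ i, (f i).I ≤ Ge p (ZMod p) (fun x => N0 c + (w i).F x) (N1 c)
  hK : ∀ i, (f i).KU ≤ mx ^ 2 ⊓ Ge p (ZMod p) (fun x => N0 c + (w i).F x) (3 * La p c n + 1)
  io : ∀ i, O p (ZMod p) (s i) →ₐ[ZMod p] A2 p s
  hy : ∀ i x, (w i).kd x = none → io i (z x) = z ⟨i, x⟩
  adm : ∀ i x, (w i).kd x ≠ none → Io.Adm T id i x (io i (z x) - z ⟨i, x⟩)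
  Z : Zn (A2 p s) κ α (Fin 3)
  ok : Z.Ok
  hm : Z.m = mx
  hγ : 2 * Z.γ ≤ 3 * c
  be : B w t → α
  be_inj : Injective be
  eps : ∀ b, Z.ε (be b) = z b.1
  eps0 : ∀ a, a ∉ range be → Z.ε a = 0
  pa : ∀ b, (T.σ b.1.1).sc b.1.2 ≤ Z.pa (be b)
  hE : ∀ a, Z.E a ∈ mx
  DE : ∀ (b : B w t) a, pd b.1 (Z.E a) ∈ mx
  hI : ∀ i, Z.IK i ≤ (f i).I.map (io i) ⊔ mx ^ La p c n
  xi : u.XI Tv ≤ Z.Pu
  row : ∀ a, a ∉ range be → Z.E a ∈ u.XI Tv ∨ La p c n + 3 * Z.γ ≤ Z.pa a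
  id : ∑ i, (if t i = true then io i (w i).W else -io i (w i).W) + Tv.A u.x u.a -
    ∑ a, Z.ε a * Z.E a ∈ Z.Qd ⊔ Z.Eps * Z.Eps ⊔ (mx * (u.N * u.N * u.N) ⊔ mx ^ La p c n)

namespace VB

variable {c n : ℕ} {T : Ty w c n} {u : Gu p s t (Σ i, s i)} {Tv : Vt (ZMod p) X t} {κ α : Type}
  [Fintype α] (v : VB T u Tv κ α) (r : Gs w u) (he : Tv.e * Tv.e = 1) (hs : (Tv.T 0).s ≠ 0)

/-- the passage to `VA` -/
def toA (x0 : V w t) : VA T x0 κ α :=
  { v with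
    hI := fun i => (v.hI i).trans (sup_le_sup_left ((T.pow_le_H2 le_rfl).trans (inf_le_inf_right _
      (Ideal.pow_le_pow_right (by omega)))) _)
    A := Tv.A u.x u.a
    H := mx * (u.N * u.N * u.N) ⊔ H2 w t c (La p c n)
    id := SetLike.le_def.1 (sup_le_sup_left (sup_le_sup_left (T.pow_le_H2 le_rfl) _) _) v.id
    cf := Gv.c w Tv
    hc := fun i x _ _ => Gv.c_ne Tv he hs i x
    Ps := (gvV x0).Ps Tv
    Ps3 := (gvV x0).Ps_N Tv
    wv := r.wV x0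
    hH := r.hH x0 v.Z T
    hA := Ideal.mem_sup_left (r.hA x0 v.Z Tv v.xi)
    row := fun a ha => (v.row a ha).imp_left (r.row x0 Tv he hs c _) }

include v r he hs in
/-- **the vertex identity with non vanishing cubic term** -/
theorem vx (hp : p ≠ 2) {D : ∀ i, ZMod p → s i} (hD : ∀ i d, (w i).kd (D i d) = none)
    (hd : ∀ i d, (w i).deg (D i d) = (qd i, d)) :
    ∃ (V : Type) (_ : Fintype V) (x : VxH w t (N0 c) (La p c n) V),
      ∀ d : Fin 3 → ZMod p, ∑ i, (if t i = true then d i else 1 - d i) = 1 →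
        x.cub (fun i => D i (d i)) ≠ 0 := by
  let x0 : V w t := ⟨(⟨0, D 0 0⟩, false), Cs.ok_y (hD 0 0)⟩
  obtain ⟨x, hx⟩ := (v.toA r he hs x0).vxH
  exact ⟨_, _, x, fun d h => (hx _ fun i => hD i _).symm ▸ (gvV x0).cub_ne Tv hp he hs hD hd d h⟩

end VB

end Crest.Agent.N255.Ma

end
end

-- ▼ part N255/Cs/PM
section

/-!
# Row 255 (helper31): the vertex family with its end gives the algebraic data `VB`
-/

set_option autoImplicit false
set_option linter.unusedSectionVars false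
open Finset Sum

noncomputable section

namespace Crest.Agent.N255.Cs

open Tw Tp _root_.N255.Dr _root_.N255.Dr.O _root_.N255.Core _root_.N255.Wt
open _root_.N255.Sl (Zn Wf W0w)
open Tg (Ge id_mx)
open Ma (A2 VB Gs)

variable {p : ℕ} [Fact p.Prime] {s : Fin 3 → Type} [∀ i, Fintype (s i)]
  {w : ∀ i, Wall p (Gm p) (g0 p) (s i)} {t : Fin 3 → Bool} {X : Type} [TopologicalSpace X]

/-- the elements of `mx` without linear term in `v` -/
def Lz0 {U : Type} [Fintype U] (v : U) : Ideal (O p (ZMod p) U) where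
  carrier := {f | f ∈ mx ∧ pd v f ∈ mx}
  zero_mem' := ⟨zero_mem _, by rw [map_zero]; exact zero_mem _⟩
  add_mem' h h' := ⟨add_mem h.1 h'.1, by rw [map_add]; exact add_mem h.2 h'.2⟩
  smul_mem' c f h := ⟨Ideal.mul_mem_left _ c h.1, by
    rw [smul_eq_mul, Derivation.leibniz]
    exact add_mem (Ideal.mul_mem_left _ _ h.2) (Ideal.mul_mem_right _ _ h.1)⟩

theorem Gu.pd_XI {U : Type} [Fintype U] (u : Gu p s t U) (T : Vt (ZMod p) X t) {v : U}
    (h : ∀ j, ∀ y ∈ u.ys j, v ≠ u.cu j y) {f : O p (ZMod p) U} (hf : f ∈ u.XI T) : pd v f ∈ mx := by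
  have k : u.N * u.N ≤ mx ^ 2 := (Ideal.mul_mono u.N_mx u.N_mx).trans (sq _).ge
  refine ((sup_le (Ideal.span_le.2 ?_) fun f hf => ⟨u.XI_mx T (Ideal.mem_sup_right hf),
    Tg.pd_sq (k (Ideal.mul_le_left hf)) _⟩ : u.XI T ≤ Lz0 v) hf).2
  rintro _ ⟨γ, _, ⟨j, hj, rfl⟩, rfl⟩
  refine ⟨id_mx u.hO _ _ (u.XI_mx T (u.a_XI T hj)), ?_⟩
  rw [(dg_pd u.hO v).pr, map_sub, map_sub, Gu.a, pd_uz_zero _ (h j), zero_sub, map_add, map_add, o_one,
    Derivation.map_one_eq_zero, zero_add]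
  exact id_mx u.hO _ _ (neg_mem (Tg.pd_sq (k (T.la_in u.id_N u.x_N j)) _))

/-- **The vertex family with its end**, over the ring of all wall variables. -/
structure PVxM {c n : ℕ} (T : Ty w c n) (u : Gu p s t (Σ i, s i)) (Tv : Vt (ZMod p) X t)
    (κ α : Type) [Fintype α] where
  /- as in `VB` -/
  f : ∀ i, Wf (w i) (N0 c)
  W0 : ∀ i, W0w (w i)
  hN : ∀ i, (f i).I ≤ Ge p (ZMod p) (fun x => N0 c + (w i).F x) (N1 c)
  hK : ∀ i, (f i).KU ≤ mx ^ 2 ⊓ Ge p (ZMod p) (fun x => N0 c + (w i).F x) (3 * La p c n + 1)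
  io : ∀ i, O p (ZMod p) (s i) →ₐ[ZMod p] A2 p s
  hy : ∀ i x, (w i).kd x = none → io i (z x) = z ⟨i, x⟩
  adm : ∀ i x, (w i).kd x ≠ none → Io.Adm T id i x (io i (z x) - z ⟨i, x⟩)
  Z : Zn (A2 p s) κ α (Fin 3)
  ok : Z.Ok
  hm : Z.m = mx
  hγ : 2 * Z.γ ≤ 3 * c
  be : B w t → α
  be_inj : Function.Injective be
  eps : ∀ b, Z.ε (be b) = z b.1
  eps0 : ∀ a, a ∉ Set.range be → Z.ε a = 0
  pa : ∀ b, (T.σ b.1.1).sc b.1.2 ≤ Z.pa (be b)
  hE : ∀ a, Z.E a ∈ mx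
  DE : ∀ (b : B w t) a, pd b.1 (Z.E a) ∈ mx
  hI : ∀ i, Z.IK i ≤ (f i).I.map (io i) ⊔ mx ^ La p c n
  xi : u.XI Tv ≤ Z.Pu
  row : ∀ a, a ∉ Set.range be → Z.E a ∈ u.XI Tv ∨ La p c n + 3 * Z.γ ≤ Z.pa a
  /- the wall families -/
  GU : ∀ i, Gr (Gm p) (ZMod p) (O p (ZMod p) (s i))
  gU : ∀ i, Cn (GU i) X
  aU : ∀ i, (Tw (GU i))ˣ
  bU : ∀ i, (Tw (GU i))ˣ
  σ : Fin 3 → Ch (ZMod p) 3 X
  hW : ∀ i, (w i).W = (Tv.T i).W (σ i) (gU i) (aU i) (bU i)
  hio : ∀ i, (GU i).Hom u.G (io i)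
  b : Fin 3 → (Tw u.G)ˣ
  ioa : ∀ j, um (hio j) (aU j) = u.a j
  iob : ∀ j, um (hio j) (bU j) = b j
  /- the vertex family -/
  g : Cn u.G X
  PK : Fin 3 → Sb X
  hσ : ∀ i, σ i ∈ (PK i).ch (ZMod p) 3
  hg : ∀ i, CU (PK i) (id_mx u.hO) g
  cmp : ∀ i, CI (PK i) (mx ^ La p c n) (dif g (mp (hio i) (gU i)))
  ρ : Ch (ZMod p) 4 X
  hρ : bd (ZMod p) ρ = Tv.c + ∑ j, if t j then σ j else -σ j
  pp : ev (ZMod p) (PP g) ρ - ∑ a, Z.ε a * Z.E a ∈ Z.Qd ⊔ Z.Eps * Z.Eps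
  /- the end -/
  L : Ideal (A2 p s)
  hL : u.G.Id L
  Lm : L ≤ mx
  XL : u.XI Tv ≤ L
  LX : L ≤ u.XI Tv ⊔ Z.Eps
  hb : ∀ j, In L ((b j).val - if t j then 1 + Tv.la u.x j else (u.x j).val)
  eh : ∀ e ∈ Tv.M.P.S 1, In L ((g e).val - (1 + Tv.M.v (fun i => (u.x i).val - 1) e))
  ee : ∀ j, (Tv.T j).Bc g (u.a j) (b j)

namespace PVxM

variable {c n : ℕ} {T : Ty w c n} {u : Gu p s t (Σ i, s i)} {Tv : Vt (ZMod p) X t} {κ α : Type}
  [Fintype α] (v : PVxM T u Tv κ α)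

theorem W_sub (i : Fin 3) :
    v.io i (w i).W - (Tv.T i).W (v.σ i) v.g (u.a i) (v.b i) ∈ mx ^ La p c n := by
  have hm := id_mx u.hO
  have Jm : (mx : Ideal (A2 p s)) ^ La p c n ≤ mx :=
    Ideal.pow_le_self (by have := N1_lt_La p c n; omega)
  have := (Tv.T i).W_io (v.hio i) (hm.pow _) Jm (v.hg i) (fun e he => In.eq (In.neg (v.cmp i e he))
    (neg_sub _ _).symm) (v.hσ i) (v.aU i) (v.bU i)
  rw [← v.hW, v.ioa, v.iob] at this
  exact Ideal.mul_le_right this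

/-- the identity before the absorption -/
theorem phi : ∑ i, (if t i = true then v.io i (w i).W else -v.io i (w i).W) + Tv.A u.x u.a -
    ev (ZMod p) (PP v.g) v.ρ ∈ (u.XI Tv ⊔ v.Z.Eps) * (u.XI Tv ⊔ v.Z.Eps) ⊔
      (mx * (u.N * u.N * u.N) ⊔ mx ^ La p c n) :=
  SetLike.le_def.1 (sup_le_sup_right (Ideal.mul_mono v.LX v.LX) _)
    (Tv.phi (id_mx u.hO) Tg.mx_nil u.id_N v.hL u.N_mx v.Lm (le_sup_right.trans v.XL) u.x_N
      (fun _ h => (u.x_M h).symm) (fun _ h => v.XL (u.a_XI Tv h)) v.hb v.eh v.ee v.hρ v.W_sub)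

include v in
/-- **the algebraic data at the vertex** -/
theorem toB (r : Gs w u) : Nonempty (VB T u Tv (Option κ) α) := by
  obtain ⟨e, h1, h2, h3, h4⟩ := v.ok.absorb v.xi 0 v.phi (Ideal.mem_sup_left v.pp)
  have hd : ∀ b : B w t, ∀ j, ∀ y ∈ u.ys j, b.1 ≠ u.cu j y := fun b j y hy e => by
    rw [r.hys, mem_ys] at hy
    have := b.2
    rw [r.cu j y hy] at e
    rw [e, hy] at this
    exact absurd this (by simp)
  exact ⟨{ v with
    Z := v.Z.adj (u.XI Tv) 0 e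
    ok := h3
    hE := fun a => add_mem (v.hE a) (u.XI_mx Tv (h1 a))
    DE := fun b a => by
      rw [show (v.Z.adj (u.XI Tv) 0 e).E a = v.Z.E a + e a from rfl, map_add]
      exact add_mem (v.DE b a) (u.pd_XI Tv (hd b) (h1 a))
    xi := (Zn.Pu_adj h2).symm ▸ v.xi
    row := fun a ha => (v.row a ha).imp_left fun h => add_mem h (h1 a)
    id := h4 }⟩

include v in
/-- **the vertex identity with non vanishing cubic term** -/
theorem vx (r : Gs w u) (he : Tv.e * Tv.e = 1) (hs : (Tv.T 0).s ≠ 0) (hp : p ≠ 2)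
    {D : ∀ i, ZMod p → s i} (hD : ∀ i d, (w i).kd (D i d) = none)
    (hd : ∀ i d, (w i).deg (D i d) = (qd i, d)) :
    ∃ (V : Type) (_ : Fintype V) (x : VxH w t (N0 c) (La p c n) V),
      ∀ d : Fin 3 → ZMod p, ∑ i, (if t i = true then d i else 1 - d i) = 1 →
        x.cub (fun i => D i (d i)) ≠ 0 :=
  (v.toB r).elim fun x => x.vx r he hs hp hD hd

end PVxM

end Crest.Agent.N255.Cs

end
end

-- ▼ part N255/Wg/Lin
section

/-!
# Row 255 (helper7): the first order expansion of an affine family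
-/

set_option autoImplicit false
open Set Module

noncomputable section

namespace Crest.Agent.N255.Lp

open Cs Cs.Tw Tp Ku

variable {p : ℕ} [Fact p.Prime] {K O : Type} [Field K] [CommRing O] [Algebra K O]
  {G : Gr (Gm p) K O} {m : Ideal O} {X : Type} [TopologicalSpace X] {g g1 : Cn G X} {hm : G.Id m}
  {ι : Type} [Fintype ι] {H : Co K 2 X →ₗ[K] Co K 1 X} {ε : ι → Tw G}

theorem zz_lin {a b : (Tw G)ˣ} (ha : a ∈ U hm) (hb : b ∈ U hm) (x y : ℤ) :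
    In (m * m) ((a ^ x * b ^ y).val - 1 - ((x : K) • (a.val - 1) + (y : K) • (b.val - 1))) := by
  have h1 := zpow_lin hm hm (b := a) (l := 1) ha (one_mem _) x
  have h2 := zpow_lin hm hm (b := b) (l := 1) hb (one_mem _) y
  rw [sup_idem, one_zpow, Units.val_one] at h1 h2
  have h3 : In (m * m) _ := o_mul_mem hm hm (zpow_mem ha x) (zpow_mem hb y)
  refine ((h1.add h2).add h3).eq ?_
  rw [Int.cast_smul_eq_zsmul, Int.cast_smul_eq_zsmul, Units.val_mul]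
  noncomm_ring

theorem src_sub' {n : ℕ} (q q' : ι → Co K n X) : src (fun j => q j - q' j) ε = src q ε - src q' ε :=
  funext fun σ => by simp [src, sub_smul, Finset.sum_sub_distrib]

variable [Module.Finite K O]

theorem tens_src (q : ι → Co K 2 X) : tens H (src q ε) = src (fun j => H (q j)) ε :=
  funext fun σ => dual_ext fun l => by
    have h1 := congrFun (lc_tens (H := H) l (src q ε)) σ
    rw [lc_src, map_sum] at h1
    refine h1.trans (Eq.trans ?_ (congrFun (lc_src l) σ).symm)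
    simp only [map_smul]

/-- **the linear part of an affine family** -/
theorem Fam.lin {q : ι → Co K 1 X} {q' : ι → Co K 2 X}
    (F : Fam hm H g1 (src q' ε) g)
    (h1 : ∀ σ, In (m * m) ((g1 σ).val - 1 - src q ε σ)) (σ : Sx 1 X) :
    In (m * m) ((g σ).val - 1 - src (fun j => q j - H (cob K (q j) - q' j)) ε σ) := by
  have c1 : ∀ x, In (m * m) (cur g1 x - cob K (Cs.dif g1 1) x) := fun x => by
    have := (sD X).F_lin hm F.u1 x
    rwa [sD_d1 K] at this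
  have c2 := ci_univ.1 (ci_cob (φ := Cs.dif g1 1 - src q ε) (ci_univ.2 h1))
  have c3 : ∀ x, In (m * m) ((cur g1 - src q' ε) x - src (fun j => cob K (q j) - q' j) ε x) :=
    fun x => ((c1 x).add (c2 x)).eq (by
      rw [src_sub', ← cob_src, map_sub]; simp only [Pi.sub_apply]; abel)
  have c4 := tens_in H c3 σ
  rw [tens_sub, tens_src] at c4
  have c5 := F.dif_lin hm (fun e => u_sub hm (F.u e) (F.u1 e)) σ
  refine (((h1 σ).add c5).sub c4).eq ?_
  rw [src_sub', Pi.sub_apply, Cs.dif]; abel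

end Crest.Agent.N255.Lp

end
end

-- ▼ part N255/Wf/Out

/-!
# Row 255 (helper22): the wall and the wall facts in the form used by step B
-/

set_option autoImplicit false
set_option linter.unusedSectionVars false
open Set

noncomputable section

namespace Crest.Agent.N255.Wf

open Cs Cs.Tw Tp Ku Tg Sl _root_.N255.Dr _root_.N255.Dr.O
open _root_.N255.Core (Wall)

section gen

variable {p : ℕ} [Fact p.Prime] {K : Type} [Field K] [Fact ((p : K) = 0)] {s : Type} [Fintype s]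

theorem deg_of_cf {Γ : Type*} [AddCommGroup Γ] [Fintype Γ] [DecidableEq Γ] {G : Gr Γ K (O p K s)}
    {d : s → Γ} (hO : ∀ i, G.Hg (d i) (z i)) {D : Γ} {W : O p K s} (hW : G.Hg D W) (a : s → ℕ)
    (h : cf a W ≠ 0) : ∑ i, a i • d i = D := by
  classical
  by_contra hn
  have key : cf a ∘ₗ G.pr D = 0 := lin_ext fun b _ => by
    have h1 : G.Hg _ (zm b) := hg_zm (AlgHom.id K _) hO b
    rw [LinearMap.comp_apply, h1.pr]
    split_ifs with e
    · rw [cf_zm, if_neg (by rintro ⟨rfl, -⟩; exact hn e.symm)]; rfl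
    · simp
  have := LinearMap.congr_fun key W
  rw [LinearMap.comp_apply, show G.pr D W = W from hW] at this
  exact h this

theorem split_at [DecidableEq s] {a : s → ℕ} {x : s} (h : a x ≠ 0) :
    ∃ b : s → ℕ, a = b + Pi.single x 1 ∧ ∑ i, a i = ∑ i, b i + 1 ∧ ∀ i, b i ≤ a i := by
  have e : a = (a - Pi.single x 1) + Pi.single x 1 := funext fun i => by
    rcases eq_or_ne i x with rfl | hi
    · simp; omega
    · simp [hi]
  refine ⟨_, e, ?_, fun i => Nat.sub_le _ _⟩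
  conv_lhs => rw [e]
  simp [Finset.sum_add_distrib, Pi.single_apply]

/-- the quadratic part only contains the boundary variables as a factor -/
theorem quad_Ny {Y : s → Prop} {W : O p K s} (h2 : W ∈ mx ^ 2)
    (h : ∀ x, ¬ Y x → pd x W ∈ mx * mx ⊔ Ny p K Y) : W ∈ Ny p K Y * mx ⊔ mx ^ 3 := by
  classical
  refine mem_of_cf LinearMap.id (E := (Ny p K Y * mx ⊔ mx ^ 3).restrictScalars K) fun a ha => ?_
  change zm a ∈ Ny p K Y * mx ⊔ mx ^ 3
  have m1 : ∀ {F : s → ℕ}, (∀ i, 0 < F i) → (mx * mx : Ideal (O p K s)) ≤ Ge p K F 2 := fun hF =>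
    (flt_Ge _).mul_le (mx_le_Ge hF) (mx_le_Ge hF) (by norm_num)
  have a2 : 2 ≤ ∑ i, a i := by
    have := mem_Ge.1 (m1 (F := fun _ => 1) (by simp) (sq (mx : Ideal (O p K s)) ▸ h2)) a ha
    simp only [wt, mul_one] at this
    omega
  by_cases hy : ∃ y, Y y ∧ a y ≠ 0
  · obtain ⟨y, hy, h0⟩ := hy
    obtain ⟨b, rfl, e, -⟩ := split_at h0
    have h1 : (zm b : O p K s) ∈ mx :=
      Ideal.pow_le_self (show ∑ i, b i ≠ 0 by omega) (zm_mem_pow b)
    have h3 : (z y : O p K s) ∈ Ny p K Y := Ny_le.1 le_rfl y hy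
    rw [zm_succ, mul_comm (zm b)]
    exact Ideal.mem_sup_left (Ideal.mul_mem_mul h3 h1)
  push Not at hy
  obtain ⟨x, -, hx⟩ := Finset.exists_ne_zero_of_sum_ne_zero (show ∑ i, a i ≠ 0 by omega)
  obtain ⟨b, rfl, e, le⟩ := split_at hx
  have h3 : mx * mx ⊔ Ny p K Y ≤ Ge p K (fun u => if Y u then 2 else 1) 2 :=
    sup_le (m1 fun i => by split_ifs <;> omega) (Ny_le.2 fun y hy => by
      simpa [hy] using z_mem_Ge (p := p) (K := K) (fun u => if Y u then 2 else 1) y)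
  have h4 := mem_Ge.1 (h3 (h x fun hx' => hx (hy x hx'))) b (cf_pd_ne.2 ha)
  have h5 : wt (fun u => if Y u then 2 else 1) b = ∑ i, b i := Finset.sum_congr rfl fun i _ => by
    by_cases hi : Y i
    · have := le i; have := hy i hi; simp [show b i = 0 by omega]
    · simp [hi]
  exact Ideal.mem_sup_right (Ideal.pow_le_pow_right (by omega) (zm_mem_pow _))

theorem Ny_eq (Y : s → Prop) : Ny p K Y = sp fun y : {y // Y y} => (z y.1 : O p K s) :=
  le_antisymm (Ny_le.2 fun y hy => mem_sp (fun y : {y // Y y} => (z y.1 : O p K s)) ⟨y, hy⟩)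
    (sp_le.2 fun y => Ny_le.1 le_rfl y.1 y.2)

variable {G : Gr (Gm p) K (O p K s)} {d : s → Gm p} {X : Type} [TopologicalSpace X]
  {hO : ∀ i, G.Hg (d i) (z i)} {T : To K X} {σ : Ch K 3 X} {g : Cn G X} {a b : (Tw G)ˣ}
  {Y : s → Prop} {κ : s → Co K 1 X} {f : Co (Tw G) 2 X} {Z : ℕ → Sb X} {P : Sb X} {n : ℕ}
  {Nr : Set (Co K 2 X)} {F : s → ℕ} {wk : ℕ → ℕ} {N0 : ℕ}
  (h : WF hO T σ g a b Y κ f Z P n Nr F wk N0)

include h

/-- **(W0)**, weak form -/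
theorem WF.w0' : T.W σ g a b ∈ Ny p K Y * mx ⊔ mx ^ 3 := quad_Ny h.W_sq fun _ => h.pd_lin

theorem WF.Lw_le : Lw Y (T.W σ g a b) ≤ mx * mx ⊔ Ny p K Y := iSup_le fun x => by
  by_cases hx : Y x
  · rw [YT, if_pos hx]; exact le_sup_of_le_right Ideal.mul_le_left
  · exact Ideal.mul_le_right.trans ((Ideal.span_singleton_le_iff_mem _).2 (h.pd_lin hx))

theorem WF.I_le (hn : 0 < wk n) :
    Lw Y (T.W σ g a b) ⊔ mx * Ge p K F (wk n) ≤ mx * mx ⊔ Ny p K Y :=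
  sup_le h.Lw_le (le_sup_of_le_left (Ideal.mul_mono_right (Ge_le_mx (by omega))))

end gen

variable {p : ℕ} [Fact p.Prime] {s : Type} [Fintype s] {G : Gr (Gm p) (ZMod p) (O p (ZMod p) s)}
  {d : s → Gm p}

/-- the wall of a homogeneous potential -/
def wall (hO : ∀ i, G.Hg (d i) (z i)) (kd : s → Option Bool) (F : s → ℕ) (W : O p (ZMod p) s)
    (h2 : W ∈ mx ^ 2) (hW : G.Hg (g0 p) W)
    (inj : ∀ i j, kd i = none → kd j = none → d i = d j → i = j) : Wall p (Gm p) (g0 p) s :=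
  ⟨kd, F, d, W, h2, deg_of_cf hO hW, inj⟩

variable {X : Type} [TopologicalSpace X] {hO : ∀ i, G.Hg (d i) (z i)} {T : To (ZMod p) X}
  {σ : Ch (ZMod p) 3 X} {g : Cn G X} {a b : (Tw G)ˣ} {κ : s → Co (ZMod p) 1 X}
  {f : Co (Tw G) 2 X} {Z : ℕ → Sb X} {P : Sb X} {n : ℕ} {Nr : Set (Co (ZMod p) 2 X)}
  {wk : ℕ → ℕ} {N0 N : ℕ} {Γ : Type} [AddCommGroup Γ] {δ : Γ} {w : Wall p Γ δ s}
  (h : WF hO T σ g a b (fun x => w.kd x = none) κ f Z P n Nr (fun x => N + w.F x) wk N0)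
  (hW : w.W = T.W σ g a b)

include h hW in
theorem WF.ex_ka (x : {x // w.kd x ≠ none}) : ∃ v ∈ Ge p (ZMod p) (fun x => N + w.F x)
    ((N + w.F x.1 : ℕ) + 1), v - pd x.1 w.W ∈ mx * Lw (fun x => w.kd x = none) w.W := by
  obtain ⟨u, hu, v, hv, e⟩ := Submodule.mem_sup.1 (h.w2 x.2)
  rw [← hW] at hu e
  exact ⟨v, hv, by rw [← e, sub_add_cancel_right]; exact neg_mem hu⟩

/-- **the wall facts** -/
def WF.wf : _root_.N255.Sl.Wf w N where
  I := Lw (fun x => w.kd x = none) w.W ⊔ mx * Ge p (ZMod p) (fun x => N + w.F x) (wk n)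
  KU := mx * Ge p (ZMod p) (fun x => N + w.F x) (wk n)
  β := {x // w.kd x ≠ none}
  ka x := (h.ex_ka hW x).choose
  e x := x.1
  hI := sup_le (hW ▸ h.Lw_le.trans (sup_le Ideal.mul_le_left Ny_mx)) Ideal.mul_le_left
  he x := x.2
  hk x := ⟨Ideal.mem_sup_left (by
    simpa using add_mem (Ideal.mul_le_right (h.ex_ka hW x).choose_spec.2) (pd_Lw w.W x.2)),
    (h.ex_ka hW x).choose_spec.1⟩
  w1 := nak mx_nil (sup_le (iSup_le fun x => by
      by_cases hx : w.kd x = none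
      · refine le_sup_of_le_left (le_sup_of_le_right (le_trans (le_of_eq ?_) (le_EE _ _ _ x)))
        rw [YT, if_pos hx, _root_.N255.Sl.YU, if_pos hx, Ny_eq]
      · refine Ideal.mul_le_right.trans ((Ideal.span_singleton_le_iff_mem _).2 ?_)
        simpa using sub_mem (Ideal.mem_sup_left (Ideal.mem_sup_left
          (mem_sp (fun x => (h.ex_ka hW x).choose) ⟨x, hx⟩))) (Ideal.mem_sup_right
            (Ideal.mul_mono_right le_sup_left (h.ex_ka hW ⟨x, hx⟩).choose_spec.2)))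
    (le_sup_of_le_left (le_sup_of_le_right (H_le_EE _ _ _))))
  w2 x := Ideal.mem_sup_left (Ideal.mul_mono_right le_sup_left (h.ex_ka hW x).choose_spec.2)
  hes x y := hW ▸ h.hess x.2 y.2


theorem WF.wf_cur : CI P (h.wf hW).I (cur g) := fun τ hτ => (h.w1 τ hτ).mono (hW ▸ le_rfl)

theorem WF.wf_id : G.Id (h.wf hW).I := by
  have := WF.id_I (T := T) (σ := σ) (g := g) (a := a) (b := b) (Y := fun x => w.kd x = none)
    (F := fun x => N + w.F x) (wk := wk) (n := n) hO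
  rwa [← hW] at this

theorem WF.wf_I (hn : 0 < wk n) : (h.wf hW).I ≤
    (sp fun y : {y // w.kd y = none} => (z y.1 : O p (ZMod p) s)) ⊔ mx ^ 2 := by
  have := h.I_le hn
  rwa [← hW, sup_comm (mx * mx), ← sq, Ny_eq] at this


theorem WF.wf_N (hn : 0 < wk n) {N1 : ℕ} (h1 : N1 ≤ 2 * N0) (hy : ∀ y, w.kd y = none → N1 ≤ N + w.F y) :
    (h.wf hW).I ≤ Ge p (ZMod p) (fun x => N + w.F x) N1 :=
  (h.wf_I hW hn).trans (sup_le (sp_le.2 fun y => (flt_Ge _).anti (by exact_mod_cast hy y.1 y.2)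
    (z_mem_Ge (fun x => N + w.F x) y.1)) (by
      rw [sq]; exact (flt_Ge _).mul_le h.mx_le h.mx_le (by omega)))

theorem WF.wf_K (hn : 0 < wk n) {L : ℤ} (hL : L ≤ N0 + wk n) :
    (h.wf hW).KU ≤ mx ^ 2 ⊓ Ge p (ZMod p) (fun x => N + w.F x) L :=
  le_inf (by rw [sq]; exact Ideal.mul_mono_right (Ge_le_mx (by omega)))
    ((flt_Ge _).mul_le h.mx_le le_rfl hL)

end Crest.Agent.N255.Wf

end
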